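import Vale.Agent.P102.Cover

/-!
P102: linear relations with coefficients plus or minus one, values in a finite abelian group.
-/

open MeasureTheory Filter Set Topology

namespace Vale.P102.Grp

noncomputable section

variable {Ω : Type*} [MeasurableSpace Ω] {μ : Measure Ω} {T : Ω ≃ᵐ Ω} {k : ℕ}
  {G : Type*} [AddCommGroup G] [MeasurableSpace G] [MeasurableSingletonClass G] [Fintype G]

/-- Linear form of a function along the times `t`. -/
def lin (T : Ω ≃ᵐ Ω) (a : Fin k → ℤˣ) (t : Fin k → ℤ) (g : Ω → G) (x : Ω) : G :=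
  ∑ i, (a i : ℤ) • g (S T (t i) x)

/-- Defect of the relation. -/
def res (T : Ω ≃ᵐ Ω) (a : Fin k → ℤˣ) (g : Ω → G) (c : G) (t : Fin k → ℤ) (x : Ω) : G :=
  c + lin T a t g x

/-- The exceptional set of the relation. -/
def D (T : Ω ≃ᵐ Ω) (a : Fin k → ℤˣ) (g : Ω → G) (c : G) (t : Fin k → ℤ) : Set Ω :=
  {x | res T a g c t x ≠ 0}

theorem exchange (a : Fin k → ℤˣ) (g : Ω → G) (c : G) (t u : Fin k → ℤ) (p : Ω) :
    ∑ j, (a j : ℤ) • res T a g c t (S T (u j) p) =
      ∑ i, (a i : ℤ) • res T a g c u (S T (t i) p) := by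
  simp only [res, lin, smul_add, Finset.sum_add_distrib, Finset.smul_sum, smul_smul]
  congr 1
  rw [Finset.sum_comm]
  simp only [← S_add, add_comm, mul_comm]

theorem measurable_sum_G {ι : Type*} (s : Finset ι) {f : ι → Ω → G} (hf : ∀ i, Measurable (f i)) :
    Measurable fun x => ∑ i ∈ s, f i x := by
  classical
  induction s using Finset.induction_on with
  | empty => simp [measurable_const]
  | @insert i s hi ih =>
    simp only [Finset.sum_insert hi]
    exact (measurable_of_countable fun p : G × G => p.1 + p.2).comp ((hf i).prodMk ih)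

theorem measurable_res (hT : MeasurePreserving T μ μ) (a : Fin k → ℤˣ) {g : Ω → G}
    (hg : Measurable g) (c : G) (t : Fin k → ℤ) : Measurable (res T a g c t) :=
  (measurable_of_countable fun v : G => c + v).comp (measurable_sum_G _ fun i =>
    (measurable_of_countable fun v : G => (a i : ℤ) • v).comp
      (hg.comp (mp_S hT (t i)).measurable))

theorem measurableSet_D (hT : MeasurePreserving T μ μ) (a : Fin k → ℤˣ) {g : Ω → G}
    (hg : Measurable g) (c : G) (t : Fin k → ℤ) : MeasurableSet (D T a g c t) :=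
  ((measurableSet_singleton (0 : G)).compl).preimage (measurable_res hT a hg c t)

theorem smul_ne_zero_iff (e : ℤˣ) (v : G) : (e : ℤ) • v ≠ 0 ↔ v ≠ 0 := by
  refine ⟨fun h hv => h (by rw [hv, smul_zero]), fun h hv => h ?_⟩
  have := congrArg ((e : ℤ) • ·) hv
  simpa [smul_smul, ← Units.val_mul, Int.units_mul_self] using this

/-- The window around the exceptional set of `t`. -/
def Z (T : Ω ≃ᵐ Ω) (a : Fin k → ℤˣ) (g : Ω → G) (c : G) (t : Fin k → ℤ) : Set Ω :=
  ⋃ i, P T (-t i) (D T a g c t)

theorem measurableSet_Z (hT : MeasurePreserving T μ μ) (a : Fin k → ℤˣ) {g : Ω → G}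
    (hg : Measurable g) (c : G) (t : Fin k → ℤ) : MeasurableSet (Z T a g c t) :=
  MeasurableSet.iUnion fun i => measurableSet_P hT _ (measurableSet_D hT a hg c t)

theorem real_Z_le (hT : MeasurePreserving T μ μ) (a : Fin k → ℤˣ) {g : Ω → G}
    (hg : Measurable g) (c : G) (t : Fin k → ℤ) :
    μ.real (Z T a g c t) ≤ k * μ.real (D T a g c t) := by
  refine (measureReal_iUnion_fintype_le _).trans_eq ?_
  simp [real_P hT _ (measurableSet_D hT a hg c t)]

/-- The value at `y` seen in the `j`th role from the times `u`. -/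
def val (T : Ω ≃ᵐ Ω) (a : Fin k → ℤˣ) (g : Ω → G) (c : G) (u : Fin k → ℤ) (j : Fin k)
    (y : Ω) : G :=
  (a j : ℤ) • res T a g c u (S T (-u j) y)

theorem measurable_val (hT : MeasurePreserving T μ μ) (a : Fin k → ℤˣ) {g : Ω → G}
    (hg : Measurable g) (c : G) (u : Fin k → ℤ) (j : Fin k) :
    Measurable (val T a g c u j) :=
  (measurable_of_countable fun v : G => (a j : ℤ) • v).comp
    ((measurable_res hT a hg c u).comp (mp_S hT _).measurable)

/-- The points where the role value is nonzero. -/
def role (T : Ω ≃ᵐ Ω) (a : Fin k → ℤˣ) (g : Ω → G) (c : G) (u : Fin k → ℤ) (j : Fin k) : Set Ω :=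
  P T (-u j) (D T a g c u)

theorem mem_role {a : Fin k → ℤˣ} {g : Ω → G} {c : G} {u : Fin k → ℤ} {j : Fin k} {y : Ω} :
    y ∈ role T a g c u j ↔ val T a g c u j y ≠ 0 :=
  (smul_ne_zero_iff (a j) _).symm

theorem measurableSet_role (hT : MeasurePreserving T μ μ) (a : Fin k → ℤˣ) {g : Ω → G}
    (hg : Measurable g) (c : G) (u : Fin k → ℤ) (j : Fin k) :
    MeasurableSet (role T a g c u j) :=
  measurableSet_P hT _ (measurableSet_D hT a hg c u)

/-- A solitary defect at scale `t` is the combination of the role values at scale `u`. -/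
theorem cover_val (a : Fin k → ℤˣ) (g : Ω → G) (c : G) (t u : Fin k → ℤ) (j : Fin k) (q : Ω)
    (hno : ∀ l, l ≠ j → S T (u l - u j) q ∉ D T a g c t) :
    res T a g c t q = ∑ i, (a i : ℤ) • val T a g c u j (S T (t i) q) := by
  have h := exchange (T := T) a g c t u (S T (-u j) q)
  rw [Finset.sum_eq_single j ?_ (by simp)] at h
  · simp only [← S_add, add_neg_cancel, S_zero] at h
    have h2 := congrArg ((a j : ℤ) • ·) h
    simp only [smul_smul, ← Units.val_mul, Int.units_mul_self, Units.val_one, one_smul,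
      Finset.smul_sum] at h2
    rw [h2]
    refine Finset.sum_congr rfl fun i _ => ?_
    simp only [val, smul_smul, ← S_add, Units.val_mul]
    rw [mul_comm, add_comm]
  · intro l _ hl
    rw [← S_add, ← sub_eq_add_neg]
    have hz : res T a g c t (S T (u l - u j) q) = 0 := not_not.1 (hno l hl)
    rw [hz, smul_zero]

end

end Vale.P102.Grp
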