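import Vale.Agent.P102.Group.Basic

/-!
P102: covering estimates for group valued relations.
-/

open MeasureTheory Filter Set Topology

namespace Vale.P102.Grp

noncomputable section

variable {Ω : Type*} [MeasurableSpace Ω] {μ : Measure Ω} {T : Ω ≃ᵐ Ω} {k : ℕ}
  {G : Type*} [AddCommGroup G] [MeasurableSpace G] [MeasurableSingletonClass G] [Fintype G]

theorem cover (a : Fin k → ℤˣ) (g : Ω → G) (c : G) (t u : Fin k → ℤ) (j : Fin k) (q : Ω)
    (hq : q ∈ D T a g c t) (hno : ∀ l, l ≠ j → S T (u l - u j) q ∉ D T a g c t) :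
    ∃ i, S T (t i) q ∈ role T a g c u j ∩ Z T a g c t := by
  by_contra hcon
  push Not at hcon
  refine hq ?_
  rw [cover_val a g c t u j q hno]
  refine Finset.sum_eq_zero fun i _ => ?_
  by_contra hi
  refine hcon i ⟨mem_role.2 ((smul_ne_zero_iff (a i) _).1 hi), mem_iUnion.2 ⟨i, ?_⟩⟩
  show S T (-t i) (S T (t i) q) ∈ D T a g c t
  rwa [← S_add, neg_add_cancel, S_zero]

theorem abs_cnt_sub_le [IsProbabilityMeasure μ] (hT : MeasurePreserving T μ μ) (a : Fin k → ℤˣ) {g : Ω → G}
    (hg : Measurable g) (c : G) (t u : Fin k → ℤ) (j : Fin k) :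
    ∫ x, |cnt T t (role T a g c u j ∩ Z T a g c t) x - ind (D T a g c t) x| ∂μ ≤
      k * μ.real (role T a g c u j ∩ Z T a g c t) - μ.real (D T a g c t)
        + 2 * pairs μ T u j (D T a g c t) := by
  set E := D T a g c t with hE
  set U := role T a g c u j ∩ Z T a g c t with hU
  have hEm : MeasurableSet E := measurableSet_D hT a hg c t
  have hUm : MeasurableSet U := (measurableSet_role hT a hg c u j).inter (measurableSet_Z hT a hg c t)
  have hB : ∀ l, MeasurableSet (E ∩ P T (u l - u j) E) := fun l =>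
    hEm.inter (measurableSet_P hT _ hEm)
  have hI : Integrable (fun x => cnt T t U x - ind E x) μ :=
    (integrable_cnt (μ := μ) hT t hUm).sub (integrable_ind hEm)
  have hS : Integrable (fun x => ∑ l ∈ Finset.univ.erase j, ind (E ∩ P T (u l - u j) E) x) μ :=
    integrable_finsetSum _ fun l _ => integrable_ind (hB l)
  have hpt : ∀ x, |cnt T t U x - ind E x| ≤ (cnt T t U x - ind E x)
      + 2 * ∑ l ∈ Finset.univ.erase j, ind (E ∩ P T (u l - u j) E) x := by
    intro x
    have hc : 0 ≤ cnt T t U x := Finset.sum_nonneg fun i _ => ind_nonneg _ _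
    have hs : 0 ≤ ∑ l ∈ Finset.univ.erase j, ind (E ∩ P T (u l - u j) E) x :=
      Finset.sum_nonneg fun l _ => ind_nonneg _ _
    by_cases hx : x ∈ E
    · by_cases hno : ∀ l, l ≠ j → S T (u l - u j) x ∉ E
      · obtain ⟨i, hi⟩ := cover a g c t u j x hx hno
        have h1 : 1 ≤ cnt T t U x := le_trans (by simp [ind, hU, hi]) (Finset.single_le_sum
          (fun i _ => ind_nonneg U (S T (t i) x)) (Finset.mem_univ i))
        rw [abs_of_nonneg (by simpa [ind, hx] using sub_nonneg.2 h1)]
        linarith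
      · push Not at hno
        obtain ⟨l, hl, hlE⟩ := hno
        have h1 : (1:ℝ) ≤ ∑ l ∈ Finset.univ.erase j, ind (E ∩ P T (u l - u j) E) x :=
          le_trans (by simp [ind, hx, hlE, mem_P]) (Finset.single_le_sum
            (fun l _ => ind_nonneg (E ∩ P T (u l - u j) E) x)
            (Finset.mem_erase.2 ⟨hl, Finset.mem_univ l⟩))
        rw [abs_le]
        constructor <;> linarith [ind_le_one E x, ind_nonneg E x]
    · simp only [ind, Set.indicator_of_notMem hx, sub_zero, abs_of_nonneg hc]
      exact le_add_of_nonneg_right (by positivity)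
  refine (integral_mono hI.abs (hI.add (hS.const_mul 2)) hpt).trans_eq ?_
  simp only [Pi.add_apply, Pi.sub_apply]
  rw [integral_add (hI) (hS.const_mul 2), integral_sub (integrable_cnt hT t hUm) (integrable_ind hEm),
    integral_cnt hT t hUm, integral_ind hEm, integral_const_mul,
    integral_finsetSum _ fun l _ => integrable_ind (hB l)]
  congr 2
  refine Finset.sum_congr rfl fun l _ => ?_
  rw [integral_ind (hB l), ← real_P hT (u j) (hB l), P_inter, P_P, sub_add_cancel]

theorem real_D_le [IsProbabilityMeasure μ] (hT : MeasurePreserving T μ μ) (a : Fin k → ℤˣ) {g : Ω → G}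
    (hg : Measurable g) (c : G) (t u : Fin k → ℤ) (j : Fin k) :
    μ.real (D T a g c t) ≤
      k * μ.real (role T a g c u j ∩ Z T a g c t) + 2 * pairs μ T u j (D T a g c t) := by
  have h := abs_cnt_sub_le (μ := μ) hT a hg c t u j
  have h0 : 0 ≤ ∫ x, |cnt T t (role T a g c u j ∩ Z T a g c t) x - ind (D T a g c t) x| ∂μ :=
    integral_nonneg fun x => abs_nonneg _
  linarith

/-- The roles share the exceptional set of `u`. -/
theorem sum_role_le [IsProbabilityMeasure μ] (hT : MeasurePreserving T μ μ) (a : Fin k → ℤˣ) {g : Ω → G}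
    (hg : Measurable g) (c : G) (u : Fin k → ℤ) {F : Set Ω} (hF : MeasurableSet F) :
    ∑ j, μ.real (role T a g c u j ∩ F) ≤ μ.real (D T a g c u) + ∑ j, pairs μ T u j F := by
  classical
  set E := D T a g c u
  have hEm : MeasurableSet E := measurableSet_D hT a hg c u
  have hG : ∀ j, MeasurableSet (E ∩ P T (u j) F) := fun j => hEm.inter (measurableSet_P hT _ hF)
  have hH : ∀ j l, MeasurableSet (P T (u j) F ∩ P T (u l) F) := fun j l =>
    (measurableSet_P hT _ hF).inter (measurableSet_P hT _ hF)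
  have e : ∀ j, μ.real (role T a g c u j ∩ F) = μ.real (E ∩ P T (u j) F) := fun j => by
    rw [← real_P hT (u j) ((measurableSet_role hT a hg c u j).inter hF), P_inter, role, P_P,
      neg_add_cancel]
    congr 2
  have hpt : ∀ x, ∑ j, ind (E ∩ P T (u j) F) x ≤ ind E x
      + ∑ j, ∑ l ∈ Finset.univ.erase j, ind (P T (u j) F ∩ P T (u l) F) x := by
    intro x
    have hs : ∀ j, 0 ≤ ∑ l ∈ Finset.univ.erase j, ind (P T (u j) F ∩ P T (u l) F) x :=
      fun j => Finset.sum_nonneg fun l _ => ind_nonneg _ _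
    by_cases hx : x ∈ E
    · by_cases hall : ∀ j, x ∉ P T (u j) F
      · have h0 : ∑ j, ind (E ∩ P T (u j) F) x = 0 :=
          Finset.sum_eq_zero fun j _ => by simp [ind, hall j]
        rw [h0]; exact add_nonneg (ind_nonneg _ _) (Finset.sum_nonneg fun j _ => hs j)
      push Not at hall
      obtain ⟨j₀, hj₀⟩ := hall
      rw [← Finset.add_sum_erase _ _ (Finset.mem_univ j₀)]
      refine add_le_add (by simp [ind, hx, hj₀]) ?_
      refine le_trans ?_ (Finset.sum_le_sum_of_subset_of_nonneg
        (Finset.subset_univ (Finset.univ.erase j₀))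
        fun j _ _ => hs j)
      refine Finset.sum_le_sum fun j hj => ?_
      by_cases hjF : x ∈ P T (u j) F
      · refine le_trans ?_ (Finset.single_le_sum (fun l _ => ind_nonneg _ x)
          (Finset.mem_erase.2 ⟨(Finset.ne_of_mem_erase hj).symm, Finset.mem_univ j₀⟩))
        simp [ind, hx, hjF, hj₀]
      · exact le_trans (by simp [ind, hjF]) (hs j)
    · rw [Finset.sum_eq_zero fun j _ => by simp [ind, hx]]
      exact add_nonneg (ind_nonneg _ _) (Finset.sum_nonneg fun j _ => hs j)
  have hi2 : Integrable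
      (fun x => ∑ j, ∑ l ∈ Finset.univ.erase j, ind (P T (u j) F ∩ P T (u l) F) x) μ :=
    integrable_finsetSum _ fun j _ => integrable_finsetSum _ fun l _ => integrable_ind (hH j l)
  have h := integral_mono (μ := μ) (integrable_finsetSum _ fun j _ => integrable_ind (hG j))
    ((integrable_ind hEm).add hi2) hpt
  simp only [Pi.add_apply] at h
  rw [integral_finsetSum _ fun j _ => integrable_ind (hG j), integral_add (integrable_ind hEm) hi2,
    integral_ind hEm, integral_finsetSum _ fun j _ =>
      integrable_finsetSum _ fun l _ => integrable_ind (hH j l)] at h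
  refine (le_of_eq ?_).trans (h.trans (le_of_eq ?_))
  · exact Finset.sum_congr rfl fun j _ => by rw [e j, integral_ind (hG j)]
  · refine congrArg (μ.real E + ·) (Finset.sum_congr rfl fun j _ => ?_)
    rw [integral_finsetSum _ fun l _ => integrable_ind (hH j l)]
    exact Finset.sum_congr rfl fun l _ => integral_ind (hH j l)

/-- A sequence of relations with vanishing defect contains an exact one. -/
theorem exists_exact [IsProbabilityMeasure μ] (hT : MeasurePreserving T μ μ) (hmix : Mix μ T)
    (hk : 0 < k) (a : Fin k → ℤˣ) {g : Ω → G} (hg : Measurable g) (c : G) {t : ℕ → Fin k → ℤ}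
    (ht : Spread t) (h0 : Tendsto (fun n => μ.real (D T a g c (t n))) atTop (𝓝 0)) :
    ∀ᶠ n in atTop, μ.real (D T a g c (t n)) = 0 := by
  have hK : (1:ℝ) ≤ k := by exact_mod_cast hk
  filter_upwards [h0.eventually_lt_const (show (0:ℝ) < 1 / ((k:ℝ) ^ 4 + 2 * k + 1) by positivity)]
    with n hn
  set e := μ.real (D T a g c (t n)) with he
  have he0 : 0 ≤ e := measureReal_nonneg
  suffices h : e ≤ ((k:ℝ) ^ 4 + 2 * k) * e ^ 2 by
    rw [lt_div_iff₀ (by positivity)] at hn
    nlinarith
  refine le_of_forall_pos_le_add fun γ hγ => ?_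
  have hEm := measurableSet_D (μ := μ) hT a hg c (t n)
  have hZm := measurableSet_Z (μ := μ) hT a hg c (t n)
  have hγ' : 0 < γ / (4 * k) := by positivity
  obtain ⟨m, hm1, hm2, hm3⟩ := ((eventually_all.2 fun j =>
    pairs_eventually_le hT hmix ht j hEm hγ').and ((eventually_all.2 fun j =>
    pairs_eventually_le hT hmix ht j hZm hγ').and
    (h0.eventually_le_const hγ'))).exists
  have hsum : ∑ j : Fin k, e ≤ ∑ j : Fin k,
      ((k:ℝ) * μ.real (role T a g c (t m) j ∩ Z T a g c (t n)) + 2 * (k * e ^ 2 + γ / (4 * k))) :=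
    Finset.sum_le_sum fun j _ => (real_D_le hT a hg c (t n) (t m) j).trans
      (by linarith [hm1 j])
  rw [Finset.sum_add_distrib, ← Finset.mul_sum, Finset.sum_const, Finset.sum_const,
    Finset.card_univ, Fintype.card_fin, nsmul_eq_mul, nsmul_eq_mul, ← mul_add] at hsum
  have h1 := le_of_mul_le_mul_left hsum (by linarith)
  have hZ2 : μ.real (Z T a g c (t n)) ^ 2 ≤ ((k:ℝ) * e) ^ 2 :=
    pow_le_pow_left₀ measureReal_nonneg (real_Z_le hT a hg c (t n)) 2
  have h2 : ∑ j, pairs μ T (t m) j (Z T a g c (t n)) ≤ (k:ℝ) * (k * (k * e) ^ 2 + γ / (4 * k)) :=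
    (Finset.sum_le_sum (g := fun _ => (k:ℝ) * (k * e) ^ 2 + γ / (4 * k)) fun j _ =>
      (hm2 j).trans (by gcongr)).trans_eq (by simp [mul_add])
  have h3 := sum_role_le (μ := μ) hT a hg c (t m) hZm
  have h4 : (k:ℝ) * (γ / (4 * k)) = γ / 4 := by field_simp
  have h5 : γ / (4 * k) ≤ γ / 4 := div_le_div_of_nonneg_left hγ.le (by norm_num) (by linarith)
  nlinarith

end

end Vale.P102.Grp
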