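import Vale.Agent.P102.Group.Step

/-!
P102: weak limit and rounding for group valued relations.
-/

open MeasureTheory Filter Set Topology

namespace Vale.P102.Grp

noncomputable section

variable {Ω : Type*} [MeasurableSpace Ω] {μ : Measure Ω} {T : Ω ≃ᵐ Ω} {k : ℕ}
  {G : Type*} [AddCommGroup G] [MeasurableSpace G] [MeasurableSingletonClass G] [Fintype G]

theorem measurableSet_resEq (hT : MeasurePreserving T μ μ) (a : Fin k → ℤˣ) {g : Ω → G}
    (hg : Measurable g) (c : G) (t : Fin k → ℤ) (v : G) :
    MeasurableSet {x | res T a g c t x = v} :=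
  (measurableSet_singleton v).preimage (measurable_res hT a hg c t)

/-- An integer mismatch detects every wrong value. -/
theorem res_sub_le (a : Fin k → ℤˣ) (g q : Ω → G) (c : G) (t : Fin k → ℤ) (x : Ω) :
    ind (D T a (fun y => g y - q y) c t) x ≤
      ∑ v ∈ nz G, |comb T a t (fun v => ind {y | q y = v}) v x
        - ind {x | res T a g c t x = v} x| := by
  classical
  have h0 : 0 ≤ ∑ v ∈ nz G, |comb T a t (fun v => ind {y | q y = v}) v x
      - ind {x | res T a g c t x = v} x| := Finset.sum_nonneg fun v _ => abs_nonneg _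
  by_cases hx : x ∈ D T a (fun y => g y - q y) c t
  swap
  · simpa [ind, hx] using h0
  simp only [ind, Set.indicator_of_mem hx]
  set n : G → ℕ := fun v =>
    (Finset.univ.filter fun i => (a i : ℤ) • q (S T (t i) x) = v).card with hn
  have hcomb : ∀ v, comb T a t (fun v => ind {y | q y = v}) v x = n v := fun v => by
    simp only [comb, ind, hn, Set.indicator_apply, Set.mem_ofPred_eq]
    rw [← Finset.sum_boole]
    refine Finset.sum_congr rfl fun i _ => ?_
    refine if_congr ⟨fun h => ?_, fun h => ?_⟩ rfl rfl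
    · rw [h]; simp [smul_smul, ← Units.val_mul, Int.units_mul_self]
    · rw [← h]; simp [smul_smul, ← Units.val_mul, Int.units_mul_self]
  by_contra hlt
  push Not at hlt
  have heq : ∀ v ∈ nz G, n v = if res T a g c t x = v then 1 else 0 := by
    intro v hv
    by_contra hne
    have h1 : (1:ℝ) ≤ |(n v : ℝ) - ((if res T a g c t x = v then 1 else 0 : ℕ) : ℝ)| := by
      have := Int.one_le_abs (sub_ne_zero.2 (Int.natCast_inj.not.2 hne))
      exact_mod_cast this
    have h2 := Finset.single_le_sum (f := fun v => |comb T a t (fun v => ind {y | q y = v}) v x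
      - ind {x | res T a g c t x = v} x|) (fun v _ => abs_nonneg _) hv
    have e : ind {x | res T a g c t x = v} x
        = ((if res T a g c t x = v then 1 else 0 : ℕ) : ℝ) := by
      by_cases h : res T a g c t x = v <;> simp [ind, h]
    simp only [hcomb v, e] at h2
    simp only [ind] at h2 hlt e
    linarith
  refine hx ?_
  have hl : lin T a t (fun y => g y - q y) x = lin T a t g x - lin T a t q x := by
    simp [lin, smul_sub, Finset.sum_sub_distrib]
  have hq : lin T a t q x = ∑ v ∈ nz G, n v • v := by
    rw [lin, ← Finset.sum_fiberwise (Finset.univ : Finset (Fin k))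
      (fun i => (a i : ℤ) • q (S T (t i) x))]
    rw [← Finset.sum_subset (Finset.subset_univ (nz G))]
    · refine Finset.sum_congr rfl fun v _ => ?_
      rw [Finset.sum_congr rfl fun i hi => (Finset.mem_filter.1 hi).2, Finset.sum_const]
    · intro v _ hv
      have hv0 : v = 0 := by by_contra h; exact hv (mem_nz.2 h)
      exact Finset.sum_eq_zero fun i hi => (Finset.mem_filter.1 hi).2.trans hv0
  have hsum : ∑ v ∈ nz G, n v • v = res T a g c t x := by
    rw [Finset.sum_congr rfl fun v hv => by rw [heq v hv]]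
    by_cases hr : res T a g c t x = 0
    · rw [Finset.sum_eq_zero fun v hv => by rw [if_neg (fun h => mem_nz.1 hv (h.symm.trans hr)), zero_smul]]
      exact hr.symm
    · rw [Finset.sum_eq_single (res T a g c t x) (fun v _ hv => by rw [if_neg hv.symm, zero_smul])
        (fun h => absurd (mem_nz.2 hr) h), if_pos rfl, one_smul]
  show c + lin T a t (fun y => g y - q y) x = 0
  rw [hl, hq, hsum, res]
  abel

section

variable [IsProbabilityMeasure μ] (hT : MeasurePreserving T μ μ) (hmix : Mix μ T) (a : Fin k → ℤˣ)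
  {g : Ω → G} (hg : Measurable g) (c : G) {t : ℕ → Fin k → ℤ} (ht : Spread t) {L : ℝ}
  (hL : 0 < L) (hL1 : L ≤ 1) (ε : ∀ n, |μ.real (D T a g c (t n)) - L| ≤ L ^ 2)

include hT hg hmix ht hL hL1 ε in
/-- Quadratic improvement for group valued relations. -/
theorem improve (hk : 2 ≤ k) (hsmall : 30 * (k:ℝ) ^ 5 * L ≤ 1) :
    ∃ g' : Ω → G, Measurable g' ∧ μ.real {x | g x ≠ g' x} ≤ 2 * L ∧
      ∀ n, μ.real (D T a g' c (t n)) ≤ 450 * (k:ℝ) ^ 6 * L ^ 2 := by
  classical
  set j₀ : Fin k := ⟨0, by omega⟩
  have hK : (2:ℝ) ≤ k := by exact_mod_cast hk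
  set Z₀ := Z T a g c (t 0)
  have hZ₀ : MeasurableSet Z₀ := measurableSet_Z hT a hg c _
  set W : G → ℕ → Set Ω := fun v m => vset T a g c (t m) j₀ (t 0) v
  have hW : ∀ v m, MeasurableSet (W v m) := fun v m => measurableSet_vset hT a hg c _ _ _ v
  have hWsum : ∀ (m : ℕ) (E : Set Ω), MeasurableSet E →
      ∑ v ∈ nz G, μ.real (W v m ∩ E) = μ.real (role T a g c (t m) j₀ ∩ Z₀ ∩ E) := fun m E hE => by
    have hU := (measurableSet_role (μ := μ) hT a hg c (t m) j₀).inter hZ₀
    rw [← integral_ind (hU.inter hE), Finset.sum_congr rfl fun v _ => (integral_ind ((hW v m).inter hE)).symm,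
      ← integral_finsetSum _ fun v _ => integrable_ind ((hW v m).inter hE)]
    refine integral_congr_ae (ae_of_all _ fun x => ?_)
    by_cases hx : x ∈ E
    · have := sum_vset (T := T) a g c (t m) j₀ (t 0) x
      simpa [ind, W, Z₀, Set.indicator_apply, hx] using this
    · simp [ind, hx]
  choose h hm h0 hle hlim using fun v => exists_weak_limit (μ := μ) (hyperfilter ℕ)
    (hW v) hZ₀ (fun m => fun y hy => hy.1.2)
  have h1 : ∀ v x, h v x ≤ 1 := fun v x => (hle v x).trans (ind_le_one _ _)
  have hi : ∀ v, Integrable (h v) μ := fun v => integrable_bdd (hm v) (h0 v) (h1 v)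
  have hi' : ∀ v b, Integrable (fun x => h v (S T b x)) μ := fun v b =>
    integrable_bdd ((hm v).comp (mp_S hT b).measurable) (fun x => h0 v _) (fun x => h1 v _)
  have hsi : Integrable (fun x => ∑ v ∈ nz G, h v x) μ := integrable_finsetSum _ fun v _ => hi v
  have htot : k * (∑ v ∈ nz G, ∫ x, h v x ∂μ) ≤ L + 30 * (k:ℝ) ^ 5 * L ^ 2 := by
    have hh := (tendsto_finsetSum (nz G) fun v _ => hlim v univ MeasurableSet.univ).const_mul (k:ℝ)
    simp only [hWsum _ univ MeasurableSet.univ] at hh
    simp only [setIntegral_univ, inter_univ] at hh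
    exact le_of_tendsto hh (Nat.hyperfilter_le_atTop
      ((cover_step hT hmix a hg c ht hL hL1 ε j₀ 0).mono fun m hm => hm.1))
  have hsumle : ∀ᵐ x ∂μ, ∑ v ∈ nz G, h v x ≤ ind Z₀ x := by
    refine ae_le_of_forall_setIntegral_le hsi (integrable_ind hZ₀) fun E hE _ => ?_
    rw [integral_finsetSum _ fun v _ => (hi v).integrableOn,
      show ∫ x in E, ind Z₀ x ∂μ = μ.real (E ∩ Z₀) by simp [ind, setIntegral_indicator hZ₀]]
    have hh := tendsto_finsetSum (nz G) fun v _ => hlim v E hE
    simp only [hWsum _ E hE] at hh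
    exact le_of_tendsto' hh fun m => measureReal_mono fun x hx => ⟨hx.2, hx.1.2⟩
  -- the limit constraint
  have hG : ∀ n, ∫ x, ∑ v ∈ nz G, |comb T a (t n) h v x - ind {x | res T a g c (t n) x = v} x| ∂μ
      ≤ 220 * (k:ℝ) ^ 5 * L ^ 2 := by
    intro n
    have hDm := measurableSet_resEq (μ := μ) hT a hg c (t n)
    set F := fun v x => comb T a (t n) h v x - ind {x | res T a g c (t n) x = v} x
    set Fm := fun m v x => comb T a (t n) (fun v => ind (W v m)) v x
      - ind {x | res T a g c (t n) x = v} x
    have hFi : ∀ v, Integrable (F v) μ := fun v =>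
      (integrable_finsetSum _ fun i _ => hi' _ _).sub (integrable_ind (hDm v))
    have hFmi : ∀ m v, Integrable (Fm m v) μ := fun m v =>
      (integrable_finsetSum _ fun i _ => integrable_ind_S hT _ (hW _ m)).sub (integrable_ind (hDm v))
    have hFm : ∀ v, Measurable (F v) := fun v => (Finset.measurable_sum _ fun i _ =>
      (hm _).comp (mp_S hT _).measurable).sub (measurable_const.indicator (hDm v))
    rw [integral_finsetSum _ fun v _ => (hFi v).abs,
      Finset.sum_congr rfl fun v _ => integral_abs_eq (hFi v) (hFm v)]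
    set E := fun v => {x | 0 ≤ F v x}
    have hE : ∀ v, MeasurableSet (E v) := fun v => measurableSet_le measurable_const (hFm v)
    have conv : ∀ v B, MeasurableSet B → Tendsto (fun m => ∫ x in B, Fm m v x ∂μ)
        (hyperfilter ℕ) (𝓝 (∫ x in B, F v x ∂μ)) := by
      intro v B hB
      simp only [F, Fm, comb]
      rw [integral_sub (integrable_finsetSum _ fun i _ => (hi' _ _)).integrableOn
        (integrable_ind (hDm v)).integrableOn, integral_finsetSum _ fun i _ => (hi' _ _).integrableOn]
      have e : ∀ m, ∫ x in B, ((∑ i, ind (W ((a i : ℤ) • v) m) (S T (t n i) x))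
            - ind {x | res T a g c (t n) x = v} x) ∂μ =
          (∑ i, μ.real (W ((a i : ℤ) • v) m ∩ P T (-(t n i)) B))
            - ∫ x in B, ind {x | res T a g c (t n) x = v} x ∂μ := by
        intro m
        rw [integral_sub (integrable_finsetSum _ fun i _ =>
            integrable_ind_S hT _ (hW _ m)).integrableOn (integrable_ind (hDm v)).integrableOn,
          integral_finsetSum _ fun i _ => (integrable_ind_S hT _ (hW _ m)).integrableOn]
        congr 1
        refine Finset.sum_congr rfl fun i _ => ?_
        rw [setIntegral_S hT _ hB (h := ind (W ((a i : ℤ) • v) m))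
          (measurable_const.indicator (hW _ m))]
        simp [ind, setIntegral_indicator (hW _ m), inter_comm]
      simp only [e]
      refine (tendsto_finsetSum _ fun i _ => ?_).sub_const _
      rw [setIntegral_S hT _ hB (hm _)]
      exact hlim _ _ (measurableSet_P hT _ hB)
    refine le_of_tendsto (tendsto_finsetSum (nz G) fun v _ =>
      (conv v (E v) (hE v)).sub (conv v (E v)ᶜ (hE v).compl)) (Nat.hyperfilter_le_atTop
      ((cover_step hT hmix a hg c ht hL hL1 ε j₀ n).mono fun m hm => ?_))
    refine le_trans ?_ hm.2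
    rw [integral_finsetSum _ fun v _ => (hFmi m v).abs]
    exact Finset.sum_le_sum fun v _ => sub_le_integral_abs (hFmi m v) (hE v)
  -- rounding
  set φ := fun v x => min (h v x) (1 - h v x) with hφdef
  have hφm : ∀ v, Measurable (φ v) := fun v => (hm v).min (measurable_const.sub (hm v))
  have hφ0 : ∀ v x, 0 ≤ φ v x := fun v x => le_min (h0 v x) (sub_nonneg.2 (h1 v x))
  have hφi : ∀ v b, Integrable (fun x => φ v (S T b x)) μ := fun v b =>
    integrable_bdd ((hφm v).comp (mp_S hT b).measurable) (fun x => hφ0 v _)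
      fun x => (min_le_left _ _).trans (h1 v _)
  have hDint : ∀ n, Integrable
      (fun x => ∑ v ∈ nz G, |comb T a (t n) h v x - ind {x | res T a g c (t n) x = v} x|) μ :=
    fun n => integrable_finsetSum _ fun v _ =>
      ((integrable_finsetSum _ fun i _ => hi' _ _).sub
        (integrable_ind (measurableSet_resEq hT a hg c (t n) v))).abs
  have hφS : ∀ v b, ∫ x, φ v (S T b x) ∂μ = ∫ x, φ v x ∂μ := fun v b => by
    have := setIntegral_S (μ := μ) hT b MeasurableSet.univ (hφm v)
    simpa [P] using this
  have hφ : ∑ v ∈ nz G, ∫ x, φ v x ∂μ ≤ 225 * (k:ℝ) ^ 5 * L ^ 2 := by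
    obtain ⟨n, hn⟩ := (pairs_eventually_le hT hmix ht j₀ hZ₀ (pow_pos hL 2)).exists
    have hH : ∀ l, MeasurableSet (P T (t n j₀) Z₀ ∩ P T (t n l) Z₀) := fun l =>
      (measurableSet_P hT _ hZ₀).inter (measurableSet_P hT _ hZ₀)
    have hgood : ∀ᵐ x ∂μ, ∀ l, ∑ v ∈ nz G, h v (S T (t n l) x) ≤ ind Z₀ (S T (t n l) x) :=
      ae_all_iff.2 fun l => (mp_S hT (t n l)).quasiMeasurePreserving.ae hsumle
    have hpt : ∀ᵐ x ∂μ, ∑ v ∈ nz G, φ v (S T (t n j₀) x) ≤
        (∑ v ∈ nz G, |comb T a (t n) h v x - ind {x | res T a g c (t n) x = v} x|)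
          + ∑ l ∈ Finset.univ.erase j₀, ind (P T (t n j₀) Z₀ ∩ P T (t n l) Z₀) x := by
      filter_upwards [hgood] with x hgx
      by_cases hx : S T (t n j₀) x ∈ Z₀
      · have step : ∀ w, φ ((a j₀ : ℤ) • w) (S T (t n j₀) x) ≤
            |comb T a (t n) h w x - ind {x | res T a g c (t n) x = w} x|
              + ∑ l ∈ Finset.univ.erase j₀, h ((a l : ℤ) • w) (S T (t n l) x) := by
          intro w
          rw [comb, ← Finset.add_sum_erase _ (fun i => h ((a i : ℤ) • w) (S T (t n i) x))
            (Finset.mem_univ j₀)]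
          set A := h ((a j₀ : ℤ) • w) (S T (t n j₀) x)
          set B := ∑ l ∈ Finset.univ.erase j₀, h ((a l : ℤ) • w) (S T (t n l) x)
          have hB0 : 0 ≤ B := Finset.sum_nonneg fun l _ => h0 _ _
          by_cases hD : x ∈ {x | res T a g c (t n) x = w}
          · simp only [ind, Set.indicator_of_mem hD]
            refine (min_le_right _ _).trans ?_
            linarith [neg_abs_le (A + B - 1)]
          · simp only [ind, Set.indicator_of_notMem hD, sub_zero]
            refine (min_le_left _ _).trans ?_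
            linarith [le_abs_self (A + B)]
        rw [← sum_nz_twist (a j₀) fun v => φ v (S T (t n j₀) x)]
        refine (Finset.sum_le_sum fun w _ => step w).trans ?_
        rw [Finset.sum_add_distrib]
        refine add_le_add le_rfl ?_
        rw [Finset.sum_comm]
        refine Finset.sum_le_sum fun l _ => ?_
        refine (le_of_eq (sum_nz_twist (a l) fun v => h v (S T (t n l) x))).trans ((hgx l).trans ?_)
        by_cases hl : S T (t n l) x ∈ Z₀ <;> simp [ind, P, hx, hl]
      · have hz : ∀ v, φ v (S T (t n j₀) x) = 0 := fun v => by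
          have hz : h v (S T (t n j₀) x) = 0 :=
            le_antisymm ((hle v _).trans (by simp [ind, hx])) (h0 v _)
          simp [φ, hz]
        rw [Finset.sum_eq_zero fun v _ => hz v]
        exact add_nonneg (Finset.sum_nonneg fun v _ => abs_nonneg _)
          (Finset.sum_nonneg fun l _ => ind_nonneg _ _)
    have j2 : Integrable (fun x => ∑ l ∈ Finset.univ.erase j₀,
        ind (P T (t n j₀) Z₀ ∩ P T (t n l) Z₀) x) μ :=
      integrable_finsetSum _ fun l _ => integrable_ind (hH l)
    have hint := integral_mono_ae (integrable_finsetSum _ fun v _ => hφi v _)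
      ((hDint n).add j2) hpt
    simp only [Pi.add_apply] at hint
    rw [integral_add (hDint n) j2, integral_finsetSum _ fun v _ => hφi v _,
      integral_finsetSum _ fun l _ => integrable_ind (hH l),
      Finset.sum_congr rfl fun l _ => integral_ind (hH l),
      Finset.sum_congr rfl fun v _ => hφS v _] at hint
    have hZ2 : μ.real Z₀ ≤ 2 * k * L := by
      refine (real_Z_le hT a hg c _).trans ?_
      have := mul_le_mul_of_nonneg_left (show μ.real (D T a g c (t 0)) ≤ 2 * L by
        nlinarith [(abs_le.1 (ε 0)).2]) (by positivity : (0:ℝ) ≤ k)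
      linarith
    have hZ3 := mul_le_mul_of_nonneg_left (pow_le_pow_left₀ measureReal_nonneg hZ2 2)
      (by positivity : (0:ℝ) ≤ k)
    simp only [pairs] at hn
    have p3 : (k:ℝ) ^ 3 * L ^ 2 ≤ (k:ℝ) ^ 5 * L ^ 2 :=
      mul_le_mul_of_nonneg_right (pow_le_pow_right₀ (by linarith) (by norm_num)) (sq_nonneg L)
    have p0 : L ^ 2 ≤ (k:ℝ) ^ 5 * L ^ 2 :=
      le_mul_of_one_le_left (sq_nonneg L) (one_le_pow₀ (by linarith))
    nlinarith [hG n]
  -- the correction; the almost everywhere bound makes the rounded values unique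
  set good := {x | ∑ v ∈ nz G, h v x ≤ ind Z₀ x}
  have hgm : MeasurableSet good := measurableSet_le (Finset.measurable_sum _ fun v _ => hm v)
    (measurable_const.indicator hZ₀)
  set q : Ω → G := fun x => if x ∈ good then
    ∑ v ∈ nz G, (if 1 / 2 < h v x then v else 0) else 0 with hqdef
  have hqm : Measurable q := Measurable.ite hgm (measurable_sum_G _ fun v =>
    Measurable.ite (measurableSet_lt measurable_const (hm v)) measurable_const measurable_const)
    measurable_const
  have hgood : ∀ x ∈ good, ∀ v ∈ nz G, (q x = v ↔ 1 / 2 < h v x) := by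
    intro x hx v hv
    have hle1 : ∑ v ∈ nz G, h v x ≤ 1 := le_trans hx (ind_le_one _ _)
    have huniq : ∀ w ∈ nz G, ∀ w' ∈ nz G, 1/2 < h w x → 1/2 < h w' x → w = w' := by
      intro w hw w' hw' h2 h3
      by_contra hne
      have := Finset.sum_le_sum_of_subset_of_nonneg (f := fun v => h v x)
        (show ({w, w'} : Finset G) ⊆ nz G by
          intro z hz; rcases Finset.mem_insert.1 hz with rfl | hz
          · exact hw
          · rw [Finset.mem_singleton.1 hz]; exact hw')
        fun i _ _ => h0 i x
      rw [Finset.sum_pair hne] at this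
      linarith
    simp only [hqdef, if_pos hx]
    by_cases hex : ∃ w ∈ nz G, 1 / 2 < h w x
    · obtain ⟨w, hw, h2⟩ := hex
      rw [Finset.sum_eq_single w (fun w' hw' hne => if_neg fun h3 => hne (huniq w' hw' w hw h3 h2))
        (fun h => absurd hw h), if_pos h2]
      exact ⟨fun e => e ▸ h2, fun h3 => huniq w hw v hv h2 h3⟩
    · push Not at hex
      rw [Finset.sum_eq_zero fun w hw => if_neg (not_lt.2 (hex w hw))]
      exact ⟨fun e => absurd e.symm (mem_nz.1 hv), fun h3 => absurd h3 (not_lt.2 (hex v hv))⟩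
  refine ⟨fun x => g x - q x, ?_, ?_, fun n => ?_⟩
  · exact (measurable_of_countable fun p : G × G => p.1 - p.2).comp (hg.prodMk hqm)
  · have hsupp : ∀ x, ind {x | g x ≠ g x - q x} x ≤ 2 * ∑ v ∈ nz G, h v x := by
      intro x
      have hnn : 0 ≤ ∑ v ∈ nz G, h v x := Finset.sum_nonneg fun v _ => h0 v x
      by_cases hq : q x = 0
      · simp [ind, hq, hnn]
      · have hx : x ∈ good := by by_contra hx; exact hq (by simp [hqdef, hx])
        have h2 := (hgood x hx (q x) (mem_nz.2 hq)).1 rfl
        have := Finset.single_le_sum (f := fun v => h v x) (fun v _ => h0 v x) (mem_nz.2 hq)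
        linarith [ind_le_one {x | g x ≠ g x - q x} x]
    have hNm : MeasurableSet {x | g x ≠ g x - q x} := by
      have e : {x | g x ≠ g x - q x} = q ⁻¹' {0}ᶜ := by
        ext x; simp [eq_comm (a := g x)]
      rw [e]; exact (measurableSet_singleton 0).compl.preimage hqm
    have hq' := integral_mono (μ := μ) (integrable_ind hNm) (hsi.const_mul 2) hsupp
    rw [integral_ind hNm, integral_const_mul, integral_finsetSum _ fun v _ => hi v] at hq'
    have hint0 : 0 ≤ ∑ v ∈ nz G, ∫ x, h v x ∂μ :=
      Finset.sum_nonneg fun v _ => integral_nonneg (h0 v)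
    nlinarith
  · have hg' : Measurable fun y => g y - q y :=
      (measurable_of_countable fun p : G × G => p.1 - p.2).comp (hg.prodMk hqm)
    have hDm' := measurableSet_D (μ := μ) hT a hg' c (t n)
    have hgoodae : ∀ᵐ x ∂μ, ∀ i, S T (t n i) x ∈ good :=
      ae_all_iff.2 fun i => (mp_S hT (t n i)).quasiMeasurePreserving.ae hsumle
    have hpt : ∀ᵐ x ∂μ, ind (D T a (fun y => g y - q y) c (t n)) x ≤
        (∑ v ∈ nz G, |comb T a (t n) h v x - ind {x | res T a g c (t n) x = v} x|)
          + ∑ i, ∑ v ∈ nz G, φ v (S T (t n i) x) := by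
      filter_upwards [hgoodae] with x hgx
      refine (res_sub_le a g q c (t n) x).trans ?_
      have e : ∀ i, ∀ v ∈ nz G,
          |ind {y | q y = v} (S T (t n i) x) - h v (S T (t n i) x)| ≤ φ v (S T (t n i) x) := by
        intro i v hv
        by_cases hy : 1 / 2 < h v (S T (t n i) x)
        · simp only [φ, ind, Set.indicator_of_mem
            (show S T (t n i) x ∈ {y | q y = v} from (hgood _ (hgx i) v hv).2 hy)]
          rw [abs_of_nonneg (by linarith [h1 v (S T (t n i) x)]), min_eq_right (by linarith)]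
        · simp only [φ, ind, Set.indicator_of_notMem
            (show S T (t n i) x ∉ {y | q y = v} from fun hh => hy ((hgood _ (hgx i) v hv).1 hh))]
          rw [zero_sub, abs_neg, abs_of_nonneg (h0 _ _), min_eq_left (by linarith [not_lt.1 hy])]
      refine (Finset.sum_le_sum fun v _ => abs_sub_le _ (comb T a (t n) h v x) _).trans ?_
      rw [Finset.sum_add_distrib, add_comm]
      refine add_le_add le_rfl ?_
      simp only [comb, ← Finset.sum_sub_distrib]
      refine (Finset.sum_le_sum fun v _ => Finset.abs_sum_le_sum_abs _ _).trans ?_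
      rw [Finset.sum_comm]
      refine Finset.sum_le_sum fun i _ => ?_
      refine (le_of_eq (sum_nz_twist (a i) fun v =>
        |ind {y | q y = v} (S T (t n i) x) - h v (S T (t n i) x)|)).trans ?_
      exact Finset.sum_le_sum (e i)
    have j2 : Integrable (fun x => ∑ i, ∑ v ∈ nz G, φ v (S T (t n i) x)) μ :=
      integrable_finsetSum _ fun i _ => integrable_finsetSum _ fun v _ => hφi v _
    have hint := integral_mono_ae (integrable_ind hDm') ((hDint n).add j2) hpt
    simp only [Pi.add_apply] at hint
    rw [integral_add (hDint n) j2, integral_ind hDm',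
      integral_finsetSum _ fun i _ => integrable_finsetSum _ fun v _ => hφi v _,
      Finset.sum_congr rfl fun i _ => integral_finsetSum _ fun v _ => hφi v _] at hint
    simp only [hφS, Finset.sum_const, Finset.card_univ, Fintype.card_fin, nsmul_eq_mul] at hint
    have p6 : (k:ℝ) ^ 5 * L ^ 2 ≤ (k:ℝ) ^ 6 * L ^ 2 :=
      mul_le_mul_of_nonneg_right (pow_le_pow_right₀ (by linarith) (by norm_num)) (sq_nonneg L)
    nlinarith [hG n, mul_le_mul_of_nonneg_left hφ (by positivity : (0:ℝ) ≤ k)]

end

end

end Vale.P102.Grp
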