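import Vale.Agent.P102.Group.Recurrence

/-!
P102: no mixing transformation is close to a group valued relation.
-/

open MeasureTheory Filter Set Topology

namespace Vale.P102.Grp

noncomputable section

variable {Ω : Type*} [MeasurableSpace Ω] {μ : Measure Ω} {T : Ω ≃ᵐ Ω} {k : ℕ}
  {G : Type*} [AddCommGroup G] [MeasurableSpace G] [MeasurableSingletonClass G] [Fintype G]

/-- The constant of the improvement step. -/
def C (k : ℕ) : ℝ := 450 * (k:ℝ) ^ 6

theorem C_pos (hk : 2 ≤ k) : 0 < C k := by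
  have : (0:ℝ) < k := by exact_mod_cast (by omega : 0 < k)
  unfold C; positivity

/-- Widely spread times along which the defect tends to `L`. -/
def Near (μ : Measure Ω) (T : Ω ≃ᵐ Ω) (a : Fin k → ℤˣ) (g : Ω → G) (c : G) (L : ℝ) : Prop :=
  ∃ t : ℕ → Fin k → ℤ, Spread t ∧ Tendsto (fun n => μ.real (D T a g c (t n))) atTop (𝓝 L)

theorem near_step [IsProbabilityMeasure μ] (hT : MeasurePreserving T μ μ) (hmix : Mix μ T)
    (hk : 2 ≤ k) (a : Fin k → ℤˣ) (c : G) {g : Ω → G} (hg : Measurable g) {L : ℝ} (hL0 : 0 ≤ L)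
    (hL : L ≤ 1 / (2 * C k)) (h : Near μ T a g c L) :
    ∃ g', Measurable g' ∧ μ.real {x | g x ≠ g' x} ≤ 2 * L ∧
      ∃ L', 0 ≤ L' ∧ L' ≤ L / 2 ∧ Near μ T a g' c L' := by
  rcases hL0.eq_or_lt with rfl | hpos
  · exact ⟨g, hg, by simp, 0, le_rfl, by norm_num, h⟩
  obtain ⟨t, ht, hlim⟩ := h
  have hC := C_pos hk
  have hK : (2:ℝ) ≤ k := by exact_mod_cast hk
  have hCL : 2 * C k * L ≤ 1 := by
    rw [le_div_iff₀ (by positivity)] at hL; linarith
  have h56 : (k:ℝ) ^ 5 ≤ (k:ℝ) ^ 6 := pow_le_pow_right₀ (by linarith) (by norm_num)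
  have hsmall : 30 * (k:ℝ) ^ 5 * L ≤ 1 := by
    unfold C at hCL; nlinarith
  have hL1 : L ≤ 1 := by
    have : (1:ℝ) ≤ (k:ℝ) ^ 5 := one_le_pow₀ (by linarith)
    nlinarith
  obtain ⟨N, hN⟩ := Metric.tendsto_atTop.1 hlim (L ^ 2) (pow_pos hpos 2)
  set t' : ℕ → Fin k → ℤ := t ∘ fun n => n + N
  have ht' : Spread t' := ht.comp (tendsto_add_atTop_nat N)
  have hε : ∀ n, |μ.real (D T a g c (t' n)) - L| ≤ L ^ 2 := fun n =>
    (Real.dist_eq _ _ ▸ hN (n + N) (Nat.le_add_left N n)).le
  obtain ⟨g', hg', hQL, hev⟩ := improve hT hmix a hg c ht' hpos hL1 hε hk hsmall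
  obtain ⟨L', hL', φ, hφ, hφlim⟩ := isCompact_Icc.tendsto_subseq
    (x := fun n => μ.real (D T a g' c (t' n)))
    (fun n => show _ ∈ Icc (0:ℝ) (450 * (k:ℝ) ^ 6 * L ^ 2) from
      ⟨measureReal_nonneg, hev n⟩)
  refine ⟨g', hg', hQL, L', hL'.1, ?_, fun n => t' (φ n), ht'.comp hφ.tendsto_atTop, hφlim⟩
  have := hL'.2
  unfold C at hCL
  nlinarith

theorem near_zero_trivial [IsProbabilityMeasure μ] (hT : MeasurePreserving T μ μ)
    (hmix : Mix μ T) (hk : 2 ≤ k) (a : Fin k → ℤˣ) (c : G) {g : Ω → G} (hg : Measurable g)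
    (h : Near μ T a g c 0) : ∀ v, μ.real {x | g x = v} * (1 - μ.real {x | g x = v}) = 0 := by
  obtain ⟨t, ht, hlim⟩ := h
  have hev : ∀ᶠ n in atTop, Function.Injective (t n) := by
    have h : ∀ p : Fin k × Fin k, ∀ᶠ n in atTop, p.1 ≠ p.2 → t n p.1 ≠ t n p.2 := by
      intro p
      by_cases hp : p.1 = p.2
      · exact Eventually.of_forall fun n h => absurd hp h
      · filter_upwards [(ht _ _ hp).eventually (eventually_cofinite_ne (0:ℤ))] with n hn _ e
        exact hn (sub_eq_zero.2 e)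
    filter_upwards [eventually_all.2 h] with n hn i j e
    by_contra hij
    exact hn (i, j) hij e
  obtain ⟨n, hn1, hn2⟩ := (hev.and (exists_exact hT hmix (by omega) a hg c ht hlim)).exists
  exact trivial_of_exact hT hmix hk a hg c hn1 hn2

theorem D_subset (a : Fin k → ℤˣ) (g g' : Ω → G) (c : G) (t : Fin k → ℤ) :
    D T a g' c t ⊆ D T a g c t ∪ ⋃ i, P T (t i) {x | g x ≠ g' x} := by
  intro x hx
  by_contra h
  simp only [mem_union, mem_iUnion, not_or, not_exists] at h
  have e : res T a g c t x = res T a g' c t x := by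
    refine congrArg (c + ·) (Finset.sum_congr rfl fun i _ => ?_)
    have h2 : g (S T (t i) x) = g' (S T (t i) x) := not_not.1 (h.2 i)
    rw [h2]
  exact h.1 (fun h0 => hx (e ▸ h0))

theorem near_small_trivial [IsProbabilityMeasure μ] (hT : MeasurePreserving T μ μ)
    (hmix : Mix μ T) (hk : 2 ≤ k) (a : Fin k → ℤˣ) (c : G) {g : Ω → G} (hg : Measurable g) {L : ℝ}
    (hL0 : 0 ≤ L) (hL : L ≤ 1 / (2 * C k)) (h : Near μ T a g c L) :
    ∃ v, μ.real {x | g x ≠ v} ≤ 4 * L := by
  classical
  let St := {p : (Ω → G) × ℝ // Measurable p.1 ∧ 0 ≤ p.2 ∧ p.2 ≤ 1 / (2 * C k) ∧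
    Near μ T a p.1 c p.2}
  have hnext : ∀ p : St, ∃ q : St,
      μ.real {x | p.1.1 x ≠ q.1.1 x} ≤ 2 * p.1.2 ∧ q.1.2 ≤ p.1.2 / 2 := by
    intro p
    obtain ⟨g', hg', hd, L', h1, h2, h3⟩ :=
      near_step hT hmix hk a c p.2.1 p.2.2.1 p.2.2.2.1 p.2.2.2.2
    exact ⟨⟨(g', L'), hg', h1, h2.trans ((half_le_self p.2.2.1).trans p.2.2.2.1), h3⟩, hd, h2⟩
  choose F hF1 hF2 using hnext
  let seq : ℕ → St := fun s => F^[s] ⟨(g, L), hg, hL0, hL, h⟩
  have hseq : ∀ s, seq (s + 1) = F (seq s) := fun s => Function.iterate_succ_apply' F s _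
  set gs : ℕ → Ω → G := fun s => (seq s).1.1 with hgs
  have hLs : ∀ s, (seq s).1.2 ≤ L * (1/2:ℝ) ^ s := by
    intro s
    induction s with
    | zero => simp [seq]
    | succ s ih =>
      rw [hseq]; refine (hF2 _).trans ?_
      rw [pow_succ]; linarith
  set B : G → Set Ω := fun v => {x | ∀ᶠ s in atTop, gs s x = v}
  have hB : ∀ v, MeasurableSet (B v) := fun v => by
    have : B v = ⋃ N, ⋂ s, ⋂ (_ : N ≤ s), {x | gs s x = v} := by
      ext x; simp [B, eventually_atTop]
    rw [this]
    exact MeasurableSet.iUnion fun N => MeasurableSet.iInter fun s =>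
      MeasurableSet.iInter fun _ => (measurableSet_singleton v).preimage (seq s).2.1
  set gi : Ω → G := fun x => ∑ v, if x ∈ B v then v else 0
  have hgi : Measurable gi := measurable_sum_G _ fun v =>
    Measurable.ite (hB v) measurable_const measurable_const
  have hd : ∀ s, MeasurableSet {x | gs s x ≠ gi x} := fun s =>
    (MeasurableSet.of_discrete (s := {p : G × G | p.1 ≠ p.2})).preimage
      (Measurable.prodMk (seq s).2.1 hgi)
  have hclose : ∀ s, μ.real {x | gs s x ≠ gi x} ≤ 4 * L * (1/2:ℝ) ^ s := by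
    intro s
    have hsub : {x | gs s x ≠ gi x} ⊆ ⋃ r, {x | gs (s + r) x ≠ gs (s + r + 1) x} := by
      intro x hx
      by_contra hno
      simp only [mem_iUnion, not_exists, mem_ofPred_eq, not_not] at hno
      have hc : ∀ r, gs (s + r) x = gs s x := by
        intro r
        induction r with
        | zero => simp
        | succ r ih => rw [← add_assoc, ← hno r, ih]
      have hev : x ∈ B (gs s x) := eventually_atTop.2 ⟨s, fun r hr => by
        obtain ⟨q, rfl⟩ := Nat.exists_eq_add_of_le hr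
        exact hc q⟩
      refine hx (Eq.symm ?_)
      simp only [gi]
      rw [Finset.sum_eq_single (gs s x) (fun v _ hv => if_neg fun hv' => ?_) (by simp), if_pos hev]
      obtain ⟨r, h1, h2⟩ := (hv'.and hev).exists
      exact hv (h1.symm.trans h2)
    have hr : ∀ r, μ {x | gs (s + r) x ≠ gs (s + r + 1) x} ≤
        ENNReal.ofReal (2 * L * (1/2:ℝ) ^ s * (1/2) ^ r) := fun r => by
      rw [← ofReal_measureReal]
      refine ENNReal.ofReal_le_ofReal ?_
      have := hF1 (seq (s + r))
      rw [← hseq] at this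
      refine this.trans ?_
      have := hLs (s + r)
      rw [pow_add] at this
      nlinarith
    refine ENNReal.toReal_le_of_le_ofReal (by positivity)
      ((measure_mono hsub).trans ((measure_iUnion_le _).trans ((ENNReal.tsum_le_tsum hr).trans ?_)))
    rw [← ENNReal.ofReal_tsum_of_nonneg (fun r => by positivity)
      (summable_geometric_two.mul_left _), tsum_mul_left, tsum_geometric_two]
    exact ENNReal.ofReal_le_ofReal (le_of_eq (by ring))
  have hfin : ∀ s : ℕ, ∃ t : Fin k → ℤ, (∀ i j, i ≠ j → s < (t i - t j).natAbs) ∧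
      μ.real (D T a gi c t) ≤ (1 + (1 + 4 * k) * L) * (1/2:ℝ) ^ s := by
    intro s
    obtain ⟨t, ht, hlim⟩ := (seq s).2.2.2.2
    have hsp : ∀ᶠ n in atTop, ∀ i j, i ≠ j → s < (t n i - t n j).natAbs := by
      have h : ∀ p : Fin k × Fin k, ∀ᶠ n in atTop, p.1 ≠ p.2 → s < (t n p.1 - t n p.2).natAbs := by
        intro p
        by_cases hp : p.1 = p.2
        · exact Eventually.of_forall fun n h => absurd hp h
        · have hfs : ∀ᶠ z : ℤ in cofinite, s < z.natAbs := by
            refine eventually_cofinite.2 ((Set.finite_Icc (-(s:ℤ)) s).subset fun z hz => ?_)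
            simp only [mem_ofPred_eq, mem_Icc] at hz ⊢
            omega
          filter_upwards [(ht _ _ hp).eventually hfs] with n hn _
          exact hn
      filter_upwards [eventually_all.2 h] with n hn i j hij
      exact hn (i, j) hij
    obtain ⟨n, hn1, hn2⟩ := (hsp.and (hlim.eventually_le_const
      (lt_add_of_pos_right _ (by positivity : (0:ℝ) < (1/2:ℝ) ^ s)))).exists
    refine ⟨t n, hn1, ?_⟩
    refine (measureReal_mono (D_subset a (gs s) gi c (t n))).trans
      ((measureReal_union_le _ _).trans ?_)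
    have h2 : μ.real (⋃ i, P T (t n i) {x | gs s x ≠ gi x}) ≤ k * (4 * L * (1/2:ℝ) ^ s) := by
      refine (measureReal_iUnion_fintype_le _).trans ?_
      simp only [real_P hT _ (hd s), Finset.sum_const, Finset.card_univ,
        Fintype.card_fin, nsmul_eq_mul]
      exact mul_le_mul_of_nonneg_left (hclose s) (by positivity)
    have := hLs s
    have h3 : μ.real (D T a (gs s) c (t n)) ≤ (seq s).1.2 + (1/2:ℝ) ^ s := hn2
    nlinarith
  choose t ht1 ht2 using hfin
  have hnear : Near μ T a gi c 0 := by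
    refine ⟨t, fun i j hij => le_cofinite_iff_eventually_ne.2 fun z => ?_,
      squeeze_zero (fun s => measureReal_nonneg) ht2 ?_⟩
    · refine eventually_map.2 (eventually_atTop.2 ⟨z.natAbs, fun s hs e => ?_⟩)
      have := ht1 s i j hij
      rw [e] at this
      omega
    · simpa using (tendsto_pow_atTop_nhds_zero_of_lt_one (by norm_num : (0:ℝ) ≤ 1/2)
        (by norm_num)).const_mul (1 + (1 + 4 * (k:ℝ)) * L)
  have hz := near_zero_trivial hT hmix hk a c hgi hnear
  have hone : ∑ v, μ.real {x | gi x = v} = 1 := by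
    have := sum_measureReal_preimage_singleton (μ := μ) (Finset.univ : Finset G)
      (fun v _ => (measurableSet_singleton v).preimage hgi)
    simpa [Set.preimage] using this
  obtain ⟨v, hv⟩ : ∃ v, μ.real {x | gi x = v} ≠ 0 := by
    by_contra hno
    push Not at hno
    simp [hno] at hone
  have hv1 : μ.real {x | gi x = v} = 1 := by
    rcases mul_eq_zero.1 (hz v) with h | h
    · exact absurd h hv
    · linarith
  refine ⟨v, ?_⟩
  have h0 := hclose 0
  simp only [pow_zero, mul_one] at h0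
  have h1 : μ.real {x | gi x ≠ v} = 0 := by
    have := probReal_compl_eq_one_sub (μ := μ) (s := {x | gi x = v})
      ((measurableSet_singleton v).preimage hgi)
    rw [hv1, sub_self] at this
    exact this
  have hsub : {x | g x ≠ v} ⊆ {x | gs 0 x ≠ gi x} ∪ {x | gi x ≠ v} := by
    intro x hx
    by_contra hh
    simp only [mem_union, mem_ofPred_eq, not_or, not_not] at hh
    exact hx (hh.1.trans hh.2)
  have := (measureReal_mono (μ := μ) hsub).trans (measureReal_union_le _ _)
  linarith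

/-- The defect of a relation is bounded below at all large spreads. -/
theorem defect_bound [IsProbabilityMeasure μ] (hT : MeasurePreserving T μ μ) (hmix : Mix μ T)
    (hk : 2 ≤ k) (a : Fin k → ℤˣ) (c : G) {g : Ω → G} (hg : Measurable g) {m : ℝ}
    (hm : ∀ v, m ≤ μ.real {x | g x ≠ v}) :
    ∃ N : ℕ, ∀ t : Fin k → ℤ, (∀ i j, i ≠ j → (N:ℤ) ≤ |t i - t j|) →
      1 / (8 * C k) * m ≤ μ.real (D T a g c t) := by
  by_contra hcon
  push Not at hcon
  choose t ht1 ht2 using hcon
  have hC := C_pos hk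
  have hmpos : 0 < m := by
    by_contra hm0
    have h' : 1 / (8 * C k) * m ≤ 0 :=
      mul_nonpos_of_nonneg_of_nonpos (by positivity) (not_lt.1 hm0)
    linarith [measureReal_nonneg (μ := μ) (s := D T a g c (t 0)), ht2 0]
  have hm1 : m ≤ 1 := (hm 0).trans measureReal_le_one
  obtain ⟨L, hL, φ, hφ, hlim⟩ := isCompact_Icc.tendsto_subseq
    (x := fun n => μ.real (D T a g c (t n)))
    (fun n => show _ ∈ Icc (0:ℝ) (1 / (8 * C k) * m) from ⟨measureReal_nonneg, (ht2 n).le⟩)
  have hsp : Spread t := fun i j hij => le_cofinite_iff_eventually_ne.2 fun z => by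
    refine eventually_map.2 (eventually_atTop.2 ⟨z.natAbs + 1, fun s hs e => ?_⟩)
    have := ht1 s i j hij
    rw [e, ← Int.natCast_natAbs] at this
    omega
  have hL' : L ≤ 1 / (2 * C k) :=
    hL.2.trans ((mul_le_of_le_one_right (by positivity) hm1).trans
      (one_div_le_one_div_of_le (by positivity) (by linarith)))
  obtain ⟨v, hv⟩ :=
    near_small_trivial hT hmix hk a c hg hL.1 hL' ⟨_, hsp.comp hφ.tendsto_atTop, hlim⟩
  have hC1 : 1 ≤ C k := by
    unfold C
    have : (1:ℝ) ≤ (k:ℝ) ^ 6 := one_le_pow₀ (by exact_mod_cast (by omega : 1 ≤ k))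
    linarith
  have : 1 / (8 * C k) * m ≤ m / 8 := by
    rw [div_mul_eq_mul_div, one_mul]
    exact div_le_div_of_nonneg_left hmpos.le (by norm_num) (by linarith)
  linarith [hL.2, hm v]

end

end Vale.P102.Grp
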