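import Vale.Agent.P102.Group.Main
import Vale.Agent.P102.Multi

/-!
P102: relations among different functions reduce to signed relations of a single function.
-/

open MeasureTheory Filter Set Topology

namespace Vale.P102.Grp

noncomputable section

variable {Ω : Type*} [MeasurableSpace Ω] {μ : Measure Ω} {T : Ω ≃ᵐ Ω} {k : ℕ}
  {G : Type*} [AddCommGroup G] [MeasurableSpace G] [MeasurableSingletonClass G] [Fintype G]

/-- Sum of several functions along the times `t`. -/
def linv (T : Ω ≃ᵐ Ω) (g : Fin k → Ω → G) (t : Fin k → ℤ) (x : Ω) : G :=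
  ∑ i, g i (S T (t i) x)

/-- Where the relation among several functions fails. -/
def Dv (T : Ω ≃ᵐ Ω) (g : Fin k → Ω → G) (c : G) (t : Fin k → ℤ) : Set Ω :=
  {x | linv T g t x ≠ c}

theorem measurableSet_Dv (hT : MeasurePreserving T μ μ) {g : Fin k → Ω → G}
    (hg : ∀ i, Measurable (g i)) (c : G) (t : Fin k → ℤ) : MeasurableSet (Dv T g c t) :=
  ((measurableSet_singleton c).compl).preimage
    (measurable_sum_G _ fun i => (hg i).comp (mp_S hT (t i)).measurable)

theorem sum_sign_eq_zero (hk : 2 ≤ k) : ∑ σ : Equiv.Perm (Fin k), ((Equiv.Perm.sign σ : ℤˣ) : ℤ) = 0 := by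
  classical
  refine Finset.sum_involution (fun σ _ => σ * Equiv.swap ⟨0, by omega⟩ ⟨1, by omega⟩)
    (fun σ _ => ?_) (fun σ _ _ => ?_) (fun σ _ => Finset.mem_univ _) (fun σ _ => ?_)
  · rw [Equiv.Perm.sign_mul, Equiv.Perm.sign_swap (by simp)]
    simp
  · intro h
    have h2 := congrArg (fun τ : Equiv.Perm (Fin k) => τ ⟨0, by omega⟩) h
    simp at h2
  · rw [mul_assoc, Equiv.swap_mul_self, mul_one]

/-- Signed cofactor identity. -/
theorem cofactor (g : Fin k → Ω → G) (t : Fin k → Fin k → ℤ) (i : Fin k) (x : Ω) :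
    ∑ σ : Equiv.Perm (Fin k),
        ((Equiv.Perm.sign σ : ℤˣ) : ℤ) • linv T g (t (σ.symm i)) (S T (cofTime t i σ) x) =
      ∑ σ : Equiv.Perm (Fin k), ((Equiv.Perm.sign σ : ℤˣ) : ℤ) • g i (S T (ptime t σ) x) := by
  classical
  simp only [linv, ← S_add, Finset.smul_sum]
  rw [Finset.sum_comm, Finset.sum_eq_single i]
  · refine Finset.sum_congr rfl fun σ _ => ?_
    congr 3
    unfold ptime cofTime
    rw [← Finset.add_sum_erase _ _ (Finset.mem_univ (σ.symm i)), Equiv.apply_symm_apply]
  · intro l _ hl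
    refine Finset.sum_involution (fun σ _ => σ * Equiv.swap (σ.symm i) (σ.symm l))
      (fun σ _ => ?_) (fun σ _ _ => ?_) (fun σ _ => Finset.mem_univ _) (fun σ _ => ?_)
    · have hne : σ.symm i ≠ σ.symm l := fun h => hl (σ.symm.injective h).symm
      have e : (σ * Equiv.swap (σ.symm i) (σ.symm l)).symm i = σ.symm l := by
        rw [Equiv.symm_apply_eq]; simp
      have key : t (σ.symm l) l + cofTime t i (σ * Equiv.swap (σ.symm i) (σ.symm l)) =
          t (σ.symm i) l + cofTime t i σ := by
        unfold cofTime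
        rw [e]
        rw [← Finset.add_sum_erase _ _
            (Finset.mem_erase.2 ⟨hne, Finset.mem_univ (σ.symm i)⟩),
          ← Finset.add_sum_erase (Finset.univ.erase (σ.symm i)) _
            (Finset.mem_erase.2 ⟨hne.symm, Finset.mem_univ (σ.symm l)⟩),
          Finset.erase_right_comm]
        simp only [Equiv.Perm.mul_apply, Equiv.swap_apply_left, Equiv.apply_symm_apply]
        rw [← add_assoc, ← add_assoc, add_comm (t (σ.symm l) l)]
        congr 1
        refine Finset.sum_congr rfl fun j hj => ?_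
        simp only [Finset.mem_erase] at hj
        rw [Equiv.swap_apply_of_ne_of_ne hj.2.1 hj.1]
      rw [e, key, Equiv.Perm.sign_mul, Equiv.Perm.sign_swap hne]
      simp
    · intro h
      have h2 := congrArg (fun τ : Equiv.Perm (Fin k) => τ (σ.symm i)) h
      simp at h2
      exact hl h2
    · have e1 : (σ * Equiv.swap (σ.symm i) (σ.symm l)).symm i = σ.symm l := by
        rw [Equiv.symm_apply_eq]; simp
      have e2 : (σ * Equiv.swap (σ.symm i) (σ.symm l)).symm l = σ.symm i := by
        rw [Equiv.symm_apply_eq]; simp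
      rw [e1, e2, Equiv.swap_comm (σ.symm l) (σ.symm i), mul_assoc, Equiv.swap_mul_self, mul_one]
  · simp

theorem defect_bound_multi [IsProbabilityMeasure μ] (hT : MeasurePreserving T μ μ)
    (hmix : Mix μ T) (hk : 2 ≤ k) (c : G) {g : Fin k → Ω → G} (hg : ∀ i, Measurable (g i))
    (i : Fin k) {m : ℝ} (hm : ∀ v, m ≤ μ.real {x | g i x ≠ v}) :
    ∃ N : ℕ, ∀ t : Fin k → ℤ, (∀ a b, a ≠ b → (N:ℤ) ≤ |t a - t b|) →
      1 / (8 * k.factorial * C k.factorial) * m ≤ μ.real (Dv T g c t) := by
  classical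
  have hq2 : 2 ≤ k.factorial := (Nat.factorial_le hk : (2).factorial ≤ k.factorial)
  have hC := C_pos hq2
  let e : Fin k.factorial ≃ Equiv.Perm (Fin k) :=
    (Fintype.equivFinOfCardEq (by rw [Fintype.card_perm, Fintype.card_fin])).symm
  set sg : Fin k.factorial → ℤˣ := fun a => Equiv.Perm.sign (e a)
  obtain ⟨N, hN⟩ := defect_bound hT hmix hq2 sg (0 : G) (hg i) hm
  by_contra hcon
  push Not at hcon
  obtain ⟨t, htP, ht⟩ := exists_ladder (P := fun t => μ.real (Dv T g c t) <
    1 / (8 * k.factorial * C k.factorial) * m) hcon N k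
  have hsep := hN (fun a => ptime t (e a)) fun a b hab => ptime_sep ht (e.injective.ne hab)
  have hsub : D T sg (g i) 0 (fun a => ptime t (e a)) ⊆
      ⋃ σ : Equiv.Perm (Fin k), P T (cofTime t i σ) (Dv T g c (t (σ.symm i))) := by
    intro x hx
    by_contra hno
    simp only [mem_iUnion, not_exists] at hno
    have h0 : ∀ σ : Equiv.Perm (Fin k),
        linv T g (t (σ.symm i)) (S T (cofTime t i σ) x) = c := fun σ => not_not.1 (hno σ)
    have hs := cofactor (T := T) g t i x
    simp only [h0, ← Finset.sum_smul, sum_sign_eq_zero hk, zero_smul] at hs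
    rw [← e.sum_comp] at hs
    refine hx ?_
    show (0 : G) + lin T sg (fun a => ptime t (e a)) (g i) x = 0
    rw [zero_add]
    exact hs.symm
  have hle := hsep.trans ((measureReal_mono hsub).trans (measureReal_iUnion_fintype_le _))
  have hlt : ∑ σ : Equiv.Perm (Fin k), μ.real (P T (cofTime t i σ) (Dv T g c (t (σ.symm i)))) <
      ∑ _σ : Equiv.Perm (Fin k), 1 / (8 * k.factorial * C k.factorial) * m := by
    refine Finset.sum_lt_sum_of_nonempty Finset.univ_nonempty fun σ _ => ?_
    rw [real_P hT _ (measurableSet_Dv hT hg c _)]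
    exact htP _
  rw [Finset.sum_const, Finset.card_univ, Fintype.card_perm, Fintype.card_fin, nsmul_eq_mul] at hlt
  refine lt_irrefl _ (hle.trans_lt (hlt.trans_eq ?_))
  field_simp

end

end Vale.P102.Grp
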