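import Vale.Agent.P102.Group.Improve
import Vale.Agent.P102.Recurrence

/-!
P102: an exact group valued relation forces a periodic process.
-/

open MeasureTheory Filter Set Topology

namespace Vale.P102.Grp

noncomputable section

variable {Ω : Type*} [MeasurableSpace Ω] {μ : Measure Ω} {T : Ω ≃ᵐ Ω} {k : ℕ}
  {G : Type*} [AddCommGroup G] [MeasurableSpace G] [MeasurableSingletonClass G] [Fintype G]

theorem trivial_of_exact [IsProbabilityMeasure μ] (hT : MeasurePreserving T μ μ)
    (hmix : Mix μ T) (hk : 2 ≤ k) (a : Fin k → ℤˣ) {g : Ω → G} (hg : Measurable g) (c : G)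
    {t : Fin k → ℤ} (ht : Function.Injective t) (h0 : μ.real (D T a g c t) = 0) :
    ∀ v, μ.real {x | g x = v} * (1 - μ.real {x | g x = v}) = 0 := by
  classical
  haveI : Nonempty (Fin k) := ⟨⟨0, by omega⟩⟩
  obtain ⟨i₀, hi₀⟩ := Finite.exists_min t
  obtain ⟨i₁, hi₁⟩ := Finite.exists_max t
  have hlt : t i₀ < t i₁ := by
    refine lt_of_le_of_ne (hi₀ i₁) fun e => ?_
    have hc : ∀ i, t i = t i₀ := fun i => le_antisymm ((hi₁ i).trans_eq e.symm) (hi₀ i)
    have h := ht ((hc ⟨0, by omega⟩).trans (hc ⟨1, by omega⟩).symm)
    simp at h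
  set d := (t i₁ - t i₀).toNat with hd
  set F : (Fin d → G) → Fin d → G := fun w r =>
    if h : (r : ℕ) + 1 < d then w ⟨r + 1, h⟩
    else (a i₁ : ℤ) • -(c + ∑ i ∈ Finset.univ.erase i₁,
      (a i : ℤ) • if h : (t i - t i₀).toNat < d then w ⟨(t i - t i₀).toNat, h⟩ else 0) with hF
  set M := Fintype.card (Fin d → G)
  set N := M.factorial with hN
  have hnull : ∀ b : ℤ, ∀ᵐ x ∂μ, S T b x ∉ D T a g c t := by
    intro b
    have h' : μ (P T b (D T a g c t)) = 0 := by
      rw [P, (mp_S hT b).measure_preimage (measurableSet_D hT a hg c t).nullMeasurableSet]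
      exact (measureReal_eq_zero_iff).1 h0
    exact measure_eq_zero_iff_ae_notMem.1 h'
  have hae : ∀ᵐ x ∂μ, ∀ n : ℕ,
      g (S T ((N:ℤ) * n) x) = g x := by
    filter_upwards [ae_all_iff.2 hnull] with x hx
    set y : ℤ → G := fun b => g (S T b x) with hy
    have hrel : ∀ b, c + ∑ i, (a i : ℤ) • y (t i + b) = 0 := fun b => by
      have h : res T a g c t (S T b x) = 0 := not_not.1 (hx b)
      simpa [res, lin, hy, ← S_add] using h
    set W : ℤ → Fin d → G := fun b r => y (b + t i₀ + (r : ℕ)) with hW
    have hstep : ∀ b, W (b + 1) = F (W b) := by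
      intro b
      funext r
      simp only [hF]
      by_cases hr : (r : ℕ) + 1 < d
      · rw [dif_pos hr]
        simp only [hW]
        congr 1
        push_cast
        ring
      · rw [dif_neg hr]
        have e : y (b + 1 + t i₀ + (r : ℕ)) = y (t i₁ + b) := by
          congr 1
          have := r.isLt
          omega
        simp only [hW]
        rw [e]
        have h := hrel b
        rw [← Finset.add_sum_erase _ _ (Finset.mem_univ i₁)] at h
        have hs : (∑ i ∈ Finset.univ.erase i₁, (a i : ℤ) •
            if h : (t i - t i₀).toNat < d then y (b + t i₀ + ((t i - t i₀).toNat : ℤ)) else 0)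
            = ∑ i ∈ Finset.univ.erase i₁, (a i : ℤ) • y (t i + b) := by
          refine Finset.sum_congr rfl fun i hi => ?_
          have h1 : t i ≠ t i₁ := fun e => Finset.ne_of_mem_erase hi (ht e)
          have h2 := hi₀ i
          have h3 := hi₁ i
          rw [dif_pos (by omega)]
          congr 2
          omega
        rw [hs]
        rw [add_left_comm] at h
        rw [← eq_neg_of_add_eq_zero_left h, smul_smul, ← Units.val_mul, Int.units_mul_self]
        simp
    have hiter : ∀ (n : ℕ) a, W (a + n) = F^[n] (W a) := by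
      intro n
      induction n with
      | zero => simp
      | succ n ih =>
        intro a
        rw [Function.iterate_succ_apply', ← ih, ← hstep]
        congr 1; push_cast; ring
    have hper : ∀ a, y (a + N) = y a := by
      intro a
      have h1 : W (a - t i₀ + N) = W (a - t i₀) := by
        have e1 := hiter (M + N) (a - t i₀ - M)
        have e2 := hiter M (a - t i₀ - M)
        rw [hN, iterate_card_add, ← e2] at e1
        convert e1 using 2 <;> (push_cast; ring)
      have h2 := congrFun h1 ⟨0, by omega⟩
      simp only [hW] at h2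
      convert h2 using 2 <;> (push_cast; ring)
    intro n
    have : y ((N:ℤ) * n) = y 0 := by
      induction n with
      | zero => simp
      | succ n ih =>
        rw [← ih, ← hper ((N:ℤ) * n)]
        congr 1
    simpa [hy, S_zero] using this
  intro v
  set B := {x | g x = v}
  have hB : MeasurableSet B := (measurableSet_singleton v).preimage hg
  have hconst : ∀ n : ℕ, μ (B ∩ P T ((N:ℤ) * n) B) = μ B := fun n => by
    refine measure_congr ?_
    filter_upwards [hae] with x hx
    exact propext ⟨fun h' => h'.1, fun hxB => ⟨hxB, (hx n).trans hxB⟩⟩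
  have hinj : Function.Injective fun n : ℕ => (N:ℤ) * n := fun a b h => by
    simpa [hN, Nat.factorial_ne_zero] using h
  have hlim := (hmix B B hB hB).comp (Nat.cofinite_eq_atTop ▸ hinj.tendsto_cofinite)
  have he : μ B = μ B * μ B := tendsto_nhds_unique
    (tendsto_const_nhds.congr fun n => (hconst n).symm) hlim
  have := congrArg ENNReal.toReal he
  rw [ENNReal.toReal_mul] at this
  simp only [measureReal_def]
  linear_combination this

end

end Vale.P102.Grp
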