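import Vale.Agent.P102.Group.Cover
import Vale.Agent.P102.Step

/-!
P102: the improvement step for group valued relations.
-/

open MeasureTheory Filter Set Topology

namespace Vale.P102.Grp

noncomputable section

variable {Ω : Type*} [MeasurableSpace Ω] {μ : Measure Ω} {T : Ω ≃ᵐ Ω} {k : ℕ}
  {G : Type*} [AddCommGroup G] [MeasurableSpace G] [MeasurableSingletonClass G] [Fintype G]

/-- The nonzero values. -/
def nz (G : Type*) [AddCommGroup G] [Fintype G] : Finset G := by
  classical exact Finset.univ.erase 0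

theorem mem_nz {v : G} : v ∈ nz G ↔ v ≠ 0 := by simp [nz]

theorem sum_nz_twist {M : Type*} [AddCommMonoid M] (e : ℤˣ) (F : G → M) :
    ∑ v ∈ nz G, F ((e : ℤ) • v) = ∑ v ∈ nz G, F v := by
  refine Finset.sum_nbij' (fun v => (e : ℤ) • v) (fun v => (e : ℤ) • v)
    (fun v hv => mem_nz.2 ((smul_ne_zero_iff e v).2 (mem_nz.1 hv)))
    (fun v hv => mem_nz.2 ((smul_ne_zero_iff e v).2 (mem_nz.1 hv))) ?_ ?_ (fun v _ => rfl) <;>
  · intro v _
    simp [smul_smul, ← Units.val_mul, Int.units_mul_self]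

/-- Signed count of the values `v` along the times `t`. -/
def comb (T : Ω ≃ᵐ Ω) (a : Fin k → ℤˣ) (t : Fin k → ℤ) (H : G → Ω → ℝ) (v : G) (x : Ω) : ℝ :=
  ∑ i, H ((a i : ℤ) • v) (S T (t i) x)

/-- Where the role value near the window of `t` equals `v`. -/
def vset (T : Ω ≃ᵐ Ω) (a : Fin k → ℤˣ) (g : Ω → G) (c : G) (u : Fin k → ℤ) (j : Fin k)
    (t : Fin k → ℤ) (v : G) : Set Ω :=
  role T a g c u j ∩ Z T a g c t ∩ {y | val T a g c u j y = v}

theorem measurableSet_vset (hT : MeasurePreserving T μ μ) (a : Fin k → ℤˣ) {g : Ω → G}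
    (hg : Measurable g) (c : G) (u : Fin k → ℤ) (j : Fin k) (t : Fin k → ℤ) (v : G) :
    MeasurableSet (vset T a g c u j t v) :=
  ((measurableSet_role hT a hg c u j).inter (measurableSet_Z hT a hg c t)).inter
    ((measurableSet_singleton v).preimage (measurable_val hT a hg c u j))

theorem sum_vset (a : Fin k → ℤˣ) (g : Ω → G) (c : G) (u : Fin k → ℤ) (j : Fin k)
    (t : Fin k → ℤ) (y : Ω) :
    ∑ v ∈ nz G, ind (vset T a g c u j t v) y = ind (role T a g c u j ∩ Z T a g c t) y := by
  by_cases h : y ∈ role T a g c u j ∩ Z T a g c t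
  · rw [Finset.sum_eq_single (val T a g c u j y)]
    · simp [ind, vset, h.1, h.2]
    · intro v _ hv; simp [ind, vset, hv.symm]
    · intro hv; exact absurd (mem_nz.2 (mem_role.1 h.1)) hv
  · rw [Finset.sum_eq_zero fun v _ => ?_]
    · simp [ind, h]
    · exact Set.indicator_of_notMem (fun hh : y ∈ vset T a g c u j t v => h hh.1) _

theorem sum_comb (a : Fin k → ℤˣ) (t : Fin k → ℤ) (H : G → Ω → ℝ) (x : Ω) :
    ∑ v ∈ nz G, comb T a t H v x = ∑ i, ∑ v ∈ nz G, H v (S T (t i) x) := by
  simp only [comb]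
  rw [Finset.sum_comm]
  exact Finset.sum_congr rfl fun i _ => sum_nz_twist (a i) fun v => H v (S T (t i) x)

theorem sum_res_ind (a : Fin k → ℤˣ) (g : Ω → G) (c : G) (t : Fin k → ℤ) (x : Ω) :
    ∑ v ∈ nz G, ind {x | res T a g c t x = v} x = ind (D T a g c t) x := by
  by_cases h : x ∈ D T a g c t
  · rw [Finset.sum_eq_single (res T a g c t x)]
    · simp [ind, h]
    · intro v _ hv; simp [ind, hv.symm]
    · intro hv; exact absurd (mem_nz.2 h) hv
  · have h' : res T a g c t x = 0 := not_not.1 h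
    rw [Finset.sum_eq_zero fun v hv => ?_]
    · simp [ind, h]
    · simp [ind, h', (mem_nz.1 hv).symm]

theorem comb_vset_le (a : Fin k → ℤˣ) (g : Ω → G) (c : G) (t u : Fin k → ℤ) (j : Fin k) (x : Ω) :
    ∑ v ∈ nz G, |comb T a t (fun v => ind (vset T a g c u j t v)) v x
        - ind {x | res T a g c t x = v} x| ≤
      3 * |cnt T t (role T a g c u j ∩ Z T a g c t) x - ind (D T a g c t) x|
        + 3 * ∑ l ∈ Finset.univ.erase j, ind (D T a g c t ∩ P T (u l - u j) (D T a g c t)) x := by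
  classical
  set U := role T a g c u j ∩ Z T a g c t with hU
  set E := D T a g c t
  have hsum : ∑ v ∈ nz G, comb T a t (fun v => ind (vset T a g c u j t v)) v x = cnt T t U x := by
    rw [sum_comb, cnt_eq]
    exact Finset.sum_congr rfl fun i _ => sum_vset a g c u j t _
  have hc0 : ∀ v, 0 ≤ comb T a t (fun v => ind (vset T a g c u j t v)) v x := fun v =>
    Finset.sum_nonneg fun i _ => ind_nonneg _ _
  have hle : ∑ v ∈ nz G, |comb T a t (fun v => ind (vset T a g c u j t v)) v x
      - ind {x | res T a g c t x = v} x| ≤ cnt T t U x + ind E x := by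
    rw [← hsum, ← sum_res_ind a g c t x, ← Finset.sum_add_distrib]
    refine Finset.sum_le_sum fun v _ => ?_
    have := ind_nonneg {x | res T a g c t x = v} x
    exact abs_le.2 ⟨by linarith [hc0 v], by linarith [hc0 v]⟩
  have hb0 : 0 ≤ ∑ l ∈ Finset.univ.erase j, ind (E ∩ P T (u l - u j) E) x :=
    Finset.sum_nonneg fun l _ => ind_nonneg _ _
  have hc : 0 ≤ cnt T t U x := Finset.sum_nonneg fun i _ => ind_nonneg _ _
  by_cases hx : x ∈ E
  swap
  · simp only [ind, Set.indicator_of_notMem hx, sub_zero, abs_of_nonneg hc, add_zero] at hle ⊢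
    simp only [ind] at hb0
    linarith
  by_cases hno : ∀ l, l ≠ j → S T (u l - u j) x ∉ E
  swap
  · push Not at hno
    obtain ⟨l, hl, hlE⟩ := hno
    have h1 : (1:ℝ) ≤ ∑ l ∈ Finset.univ.erase j, ind (E ∩ P T (u l - u j) E) x :=
      le_trans (by simp [ind, hx, hlE, mem_P]) (Finset.single_le_sum
        (fun l _ => ind_nonneg (E ∩ P T (u l - u j) E) x)
        (Finset.mem_erase.2 ⟨hl, Finset.mem_univ l⟩))
    linarith [abs_le.1 (le_refl |cnt T t U x - ind E x|), ind_le_one E x,
      abs_nonneg (cnt T t U x - ind E x)]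
  have hE1 : ind E x = 1 := by simp [ind, hx]
  set F := Finset.univ.filter fun i => S T (t i) x ∈ U with hF
  have hcard : cnt T t U x = F.card := by
    simp only [cnt, hF, Set.indicator_apply]
    rw [Finset.sum_boole]
  obtain ⟨i₀, hi₀⟩ := cover a g c t u j x hx hno
  rcases Nat.lt_or_ge F.card 2 with h2 | h2
  · have hF1 : F = {i₀} := Finset.eq_singleton_iff_unique_mem.2
      ⟨Finset.mem_filter.2 ⟨Finset.mem_univ _, hi₀⟩, fun i hi => Finset.card_le_one.1 (by omega) i hi
        i₀ (Finset.mem_filter.2 ⟨Finset.mem_univ _, hi₀⟩)⟩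
    have hz : ∀ i, i ≠ i₀ → val T a g c u j (S T (t i) x) = 0 := fun i hi => by
      by_contra hne
      have hiF : i ∈ F := Finset.mem_filter.2 ⟨Finset.mem_univ _, mem_role.2 hne,
        mem_iUnion.2 ⟨i, by
          show S T (-t i) (S T (t i) x) ∈ D T a g c t
          rwa [← S_add, neg_add_cancel, S_zero]⟩⟩
      rw [hF1, Finset.mem_singleton] at hiF
      exact hi hiF
    have hres : res T a g c t x = (a i₀ : ℤ) • val T a g c u j (S T (t i₀) x) := by
      rw [cover_val a g c t u j x hno]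
      exact Finset.sum_eq_single i₀ (fun i _ hi => by rw [hz i hi, smul_zero]) (by simp)
    rw [Finset.sum_eq_zero fun v hv => ?_]
    · exact add_nonneg (mul_nonneg (by norm_num) (abs_nonneg _)) (mul_nonneg (by norm_num) hb0)
    · rw [abs_eq_zero, sub_eq_zero, comb, Finset.sum_eq_single i₀ ?_ (by simp)]
      · by_cases hv2 : val T a g c u j (S T (t i₀) x) = (a i₀ : ℤ) • v
        · simp [ind, vset, hi₀.1, hi₀.2, hres, hv2, smul_smul, ← Units.val_mul, Int.units_mul_self]
        · have : (a i₀ : ℤ) • val T a g c u j (S T (t i₀) x) ≠ v := fun h => hv2 (by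
            rw [← h]; simp [smul_smul, ← Units.val_mul, Int.units_mul_self])
          simp [ind, vset, hv2, hres, this]
      · intro i _ hi
        refine Set.indicator_of_notMem (fun h => ?_) _
        exact mem_role.1 h.1.1 (hz i hi)
  · have h3 : (2:ℝ) ≤ cnt T t U x := by rw [hcard]; exact_mod_cast h2
    rw [hE1] at hle ⊢
    rw [abs_of_nonneg (by linarith : (0:ℝ) ≤ cnt T t U x - 1)]
    linarith

section

variable [IsProbabilityMeasure μ] (hT : MeasurePreserving T μ μ) (hmix : Mix μ T) (a : Fin k → ℤˣ)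
  {g : Ω → G} (hg : Measurable g) (c : G) {t : ℕ → Fin k → ℤ} (ht : Spread t) {L : ℝ}
  (hL : 0 < L) (hL1 : L ≤ 1) (ε : ∀ n, |μ.real (D T a g c (t n)) - L| ≤ L ^ 2)

include hT hg hmix ht hL hL1 ε in
theorem cover_step (j₀ : Fin k) (n : ℕ) :
    ∀ᶠ m in atTop,
      k * μ.real (role T a g c (t m) j₀ ∩ Z T a g c (t 0)) ≤ L + 30 * (k:ℝ) ^ 5 * L ^ 2 ∧
      ∫ x, ∑ v ∈ nz G, |comb T a (t n) (fun v => ind (vset T a g c (t m) j₀ (t 0) v)) v x
          - ind {x | res T a g c (t n) x = v} x| ∂μ ≤ 220 * (k:ℝ) ^ 5 * L ^ 2 := by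
  classical
  have hK : (1:ℝ) ≤ k := by exact_mod_cast (Fin.pos j₀)
  have hL2 : L ^ 2 ≤ L := by nlinarith
  have he : ∀ i, μ.real (D T a g c (t i)) ≤ 2 * L := fun i => by linarith [(abs_le.1 (ε i)).2]
  set Z' := Z T a g c (t 0) ∪ Z T a g c (t n) with hZ'
  have hZm : MeasurableSet Z' := (measurableSet_Z hT a hg c _).union (measurableSet_Z hT a hg c _)
  have hZle : μ.real Z' ≤ 4 * k * L := by
    refine (measureReal_union_le _ _).trans ?_
    have h1 := (real_Z_le (μ := μ) hT a hg c (t 0)).trans (mul_le_mul_of_nonneg_left (he 0) (by positivity))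
    have h2 := (real_Z_le (μ := μ) hT a hg c (t n)).trans (mul_le_mul_of_nonneg_left (he n) (by positivity))
    linarith
  have hL3 : (0:ℝ) < L ^ 2 := by positivity
  filter_upwards [eventually_all.2 fun j => pairs_eventually_le hT hmix ht j hZm hL3,
    eventually_all.2 fun j => pairs_eventually_le hT hmix ht j (measurableSet_D hT a hg c (t n)) hL3,
    eventually_all.2 fun j => pairs_eventually_le hT hmix ht j (measurableSet_D hT a hg c (t 0)) hL3]
    with m hm hn h0
  set u := t m with hu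
  set w : Fin k → ℝ := fun j => μ.real (role T a g c u j ∩ Z') with hw
  set N : ℝ := (k:ℝ) ^ 5 * L ^ 2 with hN
  have hp : ∀ p : ℕ, p ≤ 5 → (k:ℝ) ^ p * L ^ 2 ≤ N := fun p hp =>
    mul_le_mul_of_nonneg_right (pow_le_pow_right₀ hK hp) (sq_nonneg L)
  have p0 := hp 0 (by norm_num)
  have p1 := hp 1 (by norm_num)
  have p2 := hp 2 (by norm_num)
  have p4 := hp 4 (by norm_num)
  have hN0 : 0 ≤ N := by positivity
  simp only [pow_zero, one_mul, pow_one] at p0 p1
  have hpb : ∀ i, (∀ j, pairs μ T u j (D T a g c (t i)) ≤ k * μ.real (D T a g c (t i)) ^ 2 + L ^ 2) →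
      ∀ j, pairs μ T u j (D T a g c (t i)) ≤ 5 * N := fun i h j => by
    have := mul_le_mul_of_nonneg_left (pow_le_pow_left₀ measureReal_nonneg (he i) 2)
      (by positivity : (0:ℝ) ≤ k)
    nlinarith [h j]
  have bn := hpb n hn
  have b0 := hpb 0 h0
  have hlow : ∀ i, (∀ j, pairs μ T u j (D T a g c (t i)) ≤ 5 * N) → ∀ j,
      L - 11 * N ≤ k * μ.real (role T a g c u j ∩ Z T a g c (t i)) := fun i h j => by
    have h' := real_D_le (μ := μ) hT a hg c (t i) u j
    linarith [h j, (abs_le.1 (ε i)).1]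
  have hsum : ∑ j, w j ≤ L + L ^ 2 + ((k:ℝ) * (k * (4 * k * L) ^ 2 + L ^ 2)) := by
    refine (sum_role_le hT a hg c u hZm).trans (add_le_add ?_ ?_)
    · linarith [(abs_le.1 (ε m)).2]
    · refine (Finset.sum_le_sum (g := fun _ => (k:ℝ) * (4 * k * L) ^ 2 + L ^ 2) fun j _ =>
        (hm j).trans ?_).trans_eq (by simp [mul_add])
      gcongr
  have hmono : ∀ j {i}, (i = 0 ∨ i = n) → k * μ.real (role T a g c u j ∩ Z T a g c (t i)) ≤ k * w j := by
    intro j i hi
    refine mul_le_mul_of_nonneg_left (measureReal_mono (inter_subset_inter_right _ ?_)) (by positivity)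
    rcases hi with rfl | rfl
    · exact subset_union_left
    · exact subset_union_right
  have hup : k * w j₀ ≤ L + 30 * N := by
    have hs := Finset.add_sum_erase Finset.univ (fun j => (k:ℝ) * w j) (Finset.mem_univ j₀)
    rw [← Finset.mul_sum Finset.univ w] at hs
    have := mul_le_mul_of_nonneg_left hsum (by linarith : (0:ℝ) ≤ k)
    have hsharp : ∀ j, L - (10 * k + 3) * L ^ 2 ≤ k * w j := fun j => by
      have h' := real_D_le (μ := μ) hT a hg c (t n) u j
      have h2 := mul_le_mul_of_nonneg_left (pow_le_pow_left₀ measureReal_nonneg (he n) 2)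
        (by positivity : (0:ℝ) ≤ k)
      nlinarith [hn j, (abs_le.1 (ε n)).1, hmono j (Or.inr rfl)]
    have hrest' : ((k:ℝ) - 1) * (L - (10 * k + 3) * L ^ 2) ≤ ∑ j ∈ Finset.univ.erase j₀, k * w j := by
      refine le_trans (le_of_eq ?_) (Finset.card_nsmul_le_sum _ _ _ fun j _ => hsharp j)
      rw [Finset.card_erase_of_mem (Finset.mem_univ _), Finset.card_univ, Fintype.card_fin,
        nsmul_eq_mul, Nat.cast_sub (Fin.pos j₀), Nat.cast_one]
    have q1 : (k:ℝ) * (L + L ^ 2 + (k * (k * (4 * k * L) ^ 2 + L ^ 2)))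
        - ((k:ℝ) - 1) * (L - (10 * k + 3) * L ^ 2)
        = L + 16 * ((k:ℝ) ^ 5 * L ^ 2) + 11 * ((k:ℝ) ^ 2 * L ^ 2) - 6 * ((k:ℝ) * L ^ 2) - 3 * L ^ 2 := by
      ring
    have q0 : (0:ℝ) ≤ (k:ℝ) * L ^ 2 := by positivity
    linarith
  refine ⟨(hmono j₀ (Or.inl rfl)).trans (by linarith), ?_⟩
  set V := role T a g c u j₀ ∩ Z T a g c (t n) with hV
  set Q := role T a g c u j₀ ∩ Z T a g c (t 0) with hQ
  set E := D T a g c (t n) with hE
  have hEm : MeasurableSet E := measurableSet_D hT a hg c _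
  have hVm : MeasurableSet V := (measurableSet_role hT a hg c u j₀).inter (measurableSet_Z hT a hg c _)
  have hQm : MeasurableSet Q := (measurableSet_role hT a hg c u j₀).inter (measurableSet_Z hT a hg c _)
  have hR : MeasurableSet (role T a g c u j₀ ∩ Z') := (measurableSet_role hT a hg c u j₀).inter hZm
  have hB : ∀ l, MeasurableSet (E ∩ P T (u l - u j₀) E) := fun l =>
    hEm.inter (measurableSet_P hT _ hEm)
  have hpt : ∀ x, ∑ v ∈ nz G, |comb T a (t n) (fun v => ind (vset T a g c u j₀ (t 0) v)) v x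
      - ind {x | res T a g c (t n) x = v} x| ≤
      3 * |cnt T (t n) V x - ind E x|
        + 3 * (∑ l ∈ Finset.univ.erase j₀, ind (E ∩ P T (u l - u j₀) E) x)
        + (2 * cnt T (t n) (role T a g c u j₀ ∩ Z') x - cnt T (t n) V x - cnt T (t n) Q x) := by
    intro x
    have key : ∀ y, ∑ v ∈ nz G,
        |ind (vset T a g c u j₀ (t 0) v) y - ind (vset T a g c u j₀ (t n) v) y| ≤
        2 * ind (role T a g c u j₀ ∩ Z') y - ind V y - ind Q y := by
      intro y
      by_cases h1 : y ∈ role T a g c u j₀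
      · have e : ∀ v, ind (vset T a g c u j₀ (t 0) v) y - ind (vset T a g c u j₀ (t n) v) y =
            (ind Q y - ind V y) * ind {y | val T a g c u j₀ y = v} y := by
          intro v
          by_cases h2 : y ∈ Z T a g c (t 0) <;> by_cases h3 : y ∈ Z T a g c (t n) <;>
            by_cases h4 : val T a g c u j₀ y = v <;> simp [ind, vset, hQ, hV, h1, h2, h3, h4]
        simp only [e, abs_mul, abs_of_nonneg (ind_nonneg _ y), ← Finset.mul_sum]
        rw [Finset.sum_eq_single (val T a g c u j₀ y) (fun v _ hv => by simp [ind, hv.symm])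
          (fun hv => absurd (mem_nz.2 (mem_role.1 h1)) hv)]
        by_cases h2 : y ∈ Z T a g c (t 0) <;> by_cases h3 : y ∈ Z T a g c (t n) <;>
          simp [ind, hQ, hV, hZ', h1, h2, h3] <;> norm_num
      · simp [ind, vset, hQ, hV, h1]
    have h1 : ∑ v ∈ nz G, |comb T a (t n) (fun v => ind (vset T a g c u j₀ (t 0) v)) v x
        - comb T a (t n) (fun v => ind (vset T a g c u j₀ (t n) v)) v x| ≤
        2 * cnt T (t n) (role T a g c u j₀ ∩ Z') x - cnt T (t n) V x - cnt T (t n) Q x := by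
      simp only [cnt_eq, ← Finset.sum_sub_distrib, Finset.mul_sum, comb]
      refine (Finset.sum_le_sum fun v _ => Finset.abs_sum_le_sum_abs _ _).trans ?_
      rw [Finset.sum_comm]
      refine Finset.sum_le_sum fun i _ => ?_
      refine le_trans (le_of_eq ?_) (key (S T (t n i) x))
      exact sum_nz_twist (a i) fun v => |ind (vset T a g c u j₀ (t 0) v) (S T (t n i) x)
        - ind (vset T a g c u j₀ (t n) v) (S T (t n i) x)|
    refine (Finset.sum_le_sum fun v _ => abs_sub_le _
      (comb T a (t n) (fun v => ind (vset T a g c u j₀ (t n) v)) v x) _).trans ?_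
    rw [Finset.sum_add_distrib]
    linarith [comb_vset_le (T := T) a g c (t n) u j₀ x]
  have i0 : Integrable (fun x => 3 * |cnt T (t n) V x - ind E x|) μ :=
    ((integrable_cnt (μ := μ) hT (t n) hVm).sub (integrable_ind hEm)).abs.const_mul 3
  have i1 : Integrable (fun x => 3 * ∑ l ∈ Finset.univ.erase j₀, ind (E ∩ P T (u l - u j₀) E) x) μ :=
    (integrable_finsetSum _ fun l _ => integrable_ind (hB l)).const_mul 3
  have i2 : Integrable (fun x => 2 * cnt T (t n) (role T a g c u j₀ ∩ Z') x - cnt T (t n) V x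
      - cnt T (t n) Q x) μ :=
    (((integrable_cnt hT _ hR).const_mul 2).sub (integrable_cnt hT _ hVm)).sub
      (integrable_cnt hT _ hQm)
  have i01 : Integrable (fun x => 3 * |cnt T (t n) V x - ind E x|
      + 3 * ∑ l ∈ Finset.univ.erase j₀, ind (E ∩ P T (u l - u j₀) E) x) μ := i0.add i1
  refine (integral_mono_of_nonneg (ae_of_all _ fun x => Finset.sum_nonneg fun v _ => abs_nonneg _)
    (i01.add i2) (ae_of_all _ hpt)).trans ?_
  simp only [Pi.add_apply]
  rw [integral_add i01 i2, integral_add i0 i1, integral_const_mul, integral_const_mul,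
    integral_finsetSum _ fun l _ => integrable_ind (hB l)]
  have e1 : ∑ l ∈ Finset.univ.erase j₀, ∫ x, ind (E ∩ P T (u l - u j₀) E) x ∂μ
      = pairs μ T u j₀ E := Finset.sum_congr rfl fun l _ => by
    rw [integral_ind (hB l), ← real_P hT (u j₀) (hB l), P_inter, P_P, sub_add_cancel]
  have e2 : ∫ x, (2 * cnt T (t n) (role T a g c u j₀ ∩ Z') x - cnt T (t n) V x
      - cnt T (t n) Q x) ∂μ = 2 * (k * w j₀) - k * μ.real V - k * μ.real Q := by
    have j1 : Integrable (fun x => 2 * cnt T (t n) (role T a g c u j₀ ∩ Z') x) μ :=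
      (integrable_cnt hT _ hR).const_mul 2
    have j2 : Integrable (fun x => 2 * cnt T (t n) (role T a g c u j₀ ∩ Z') x - cnt T (t n) V x) μ :=
      j1.sub (integrable_cnt hT _ hVm)
    rw [integral_sub j2 (integrable_cnt hT _ hQm), integral_sub j1 (integrable_cnt hT _ hVm),
      integral_const_mul, integral_cnt hT _ hR, integral_cnt hT _ hVm, integral_cnt hT _ hQm]
  rw [e1, e2]
  have h1 := abs_cnt_sub_le (μ := μ) hT a hg c (t n) u j₀
  linarith [bn j₀, hlow n bn j₀, hlow 0 b0 j₀, hmono j₀ (Or.inr rfl : n = 0 ∨ n = n),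
    (abs_le.1 (ε n)).1]

end

end

end Vale.P102.Grp
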